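import Mathlib

/-!
# P249, helper95: discrete Prekopa-Leindler inequality on the integers

Pieces (L2), (L3) of helper62's grid lower bound (report 1926).

`pl_int`: for finite nonempty sets `A`, `B` of integers and functions `F`, `G` with values in
`[0,1]` on `A`, `B`, both attaining the value `1`, and `H` with `min (F x) (G y) ≤ H (x + y)`:
`∑_A F + ∑_B G - 1 ≤ ∑_(A+B) H`.  The proof is an induction on `|A| + |B|` removing an extreme
point (largest or smallest element) of `A` or `B`; no level sets or integrals are needed.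
-/

namespace Vale.Agent.Lib.P249.H95.PL

open Finset
open scoped Pointwise

/-- removing one point `a` of `A` whose sum with some `b ∈ B` has no other representation -/
theorem pl_step (A B : Finset ℤ) (F G H : ℤ → ℝ) (a b : ℤ) (ha : a ∈ A) (hb : b ∈ B)
    (hab : a + b ∉ A.erase a + B) (hle : F a ≤ G b)
    (hH0 : ∀ z ∈ A + B, 0 ≤ H z) (hHab : min (F a) (G b) ≤ H (a + b))
    (ih : ∑ x ∈ A.erase a, F x + ∑ y ∈ B, G y - 1 ≤ ∑ z ∈ A.erase a + B, H z) :
    ∑ x ∈ A, F x + ∑ y ∈ B, G y - 1 ≤ ∑ z ∈ A + B, H z := by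
  have hsub : insert (a + b) (A.erase a + B) ⊆ A + B := by
    intro z hz
    rcases Finset.mem_insert.mp hz with rfl | hz
    · exact Finset.add_mem_add ha hb
    · obtain ⟨x, hx, y, hy, rfl⟩ := Finset.mem_add.mp hz
      exact Finset.add_mem_add (Finset.mem_of_mem_erase hx) hy
  have h1 : ∑ z ∈ insert (a + b) (A.erase a + B), H z ≤ ∑ z ∈ A + B, H z :=
    Finset.sum_le_sum_of_subset_of_nonneg hsub (fun z hz _ => hH0 z hz)
  rw [Finset.sum_insert hab] at h1
  have h2 : F a ≤ H (a + b) := by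
    rw [min_eq_left hle] at hHab; exact hHab
  have h3 : ∑ x ∈ A, F x = F a + ∑ x ∈ A.erase a, F x := (Finset.add_sum_erase A F ha).symm
  linarith

/-- the case of a one-point set `A` -/
theorem pl_single (B : Finset ℤ) (F G H : ℤ → ℝ) (a : ℤ) (hFa : F a = 1)
    (hG1 : ∀ y ∈ B, G y ≤ 1)
    (hH : ∀ y ∈ B, min (F a) (G y) ≤ H (a + y)) :
    ∑ x ∈ ({a} : Finset ℤ), F x + ∑ y ∈ B, G y - 1 ≤ ∑ z ∈ ({a} : Finset ℤ) + B, H z := by
  have himg : ({a} : Finset ℤ) + B = B.image (fun y => a + y) := by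
    ext z
    constructor
    · intro hz
      obtain ⟨x, hx, y, hy, rfl⟩ := Finset.mem_add.mp hz
      rw [Finset.mem_singleton] at hx
      subst hx
      exact Finset.mem_image.mpr ⟨y, hy, rfl⟩
    · intro hz
      obtain ⟨y, hy, rfl⟩ := Finset.mem_image.mp hz
      exact Finset.add_mem_add (Finset.mem_singleton_self a) hy
  rw [himg, Finset.sum_image (fun x _ y _ h => by simpa using h), Finset.sum_singleton, hFa]
  have : ∑ y ∈ B, G y ≤ ∑ y ∈ B, H (a + y) := by
    apply Finset.sum_le_sum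
    intro y hy
    have h := hH y hy
    rw [hFa, min_eq_right (hG1 y hy)] at h
    exact h
  linarith

/-- **Discrete Prekopa-Leindler on the integers (normalized form).** -/
theorem pl_int (H : ℤ → ℝ) : ∀ (A B : Finset ℤ) (F G : ℤ → ℝ), A.Nonempty → B.Nonempty →
    (∀ x ∈ A, 0 ≤ F x) → (∀ x ∈ A, F x ≤ 1) → (∃ x ∈ A, F x = 1) →
    (∀ y ∈ B, 0 ≤ G y) → (∀ y ∈ B, G y ≤ 1) → (∃ y ∈ B, G y = 1) →
    (∀ x ∈ A, ∀ y ∈ B, min (F x) (G y) ≤ H (x + y)) →
    ∑ x ∈ A, F x + ∑ y ∈ B, G y - 1 ≤ ∑ z ∈ A + B, H z := by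
  suffices hmain : ∀ n : ℕ, ∀ (A B : Finset ℤ) (F G : ℤ → ℝ), A.card + B.card = n →
      A.Nonempty → B.Nonempty →
      (∀ x ∈ A, 0 ≤ F x) → (∀ x ∈ A, F x ≤ 1) → (∃ x ∈ A, F x = 1) →
      (∀ y ∈ B, 0 ≤ G y) → (∀ y ∈ B, G y ≤ 1) → (∃ y ∈ B, G y = 1) →
      (∀ x ∈ A, ∀ y ∈ B, min (F x) (G y) ≤ H (x + y)) →
      ∑ x ∈ A, F x + ∑ y ∈ B, G y - 1 ≤ ∑ z ∈ A + B, H z by
    intro A B F G
    exact hmain _ A B F G rfl
  intro n
  induction n using Nat.strong_induction_on with
  | _ n IH =>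
  intro A B F G hn hA hB hF0 hF1 hFm hG0 hG1 hGm hH
  -- symmetry: the statement with the roles of A, F and B, G exchanged gives the original one
  have hsymm : ∑ y ∈ B, G y + ∑ x ∈ A, F x - 1 ≤ ∑ z ∈ B + A, H z →
      ∑ x ∈ A, F x + ∑ y ∈ B, G y - 1 ≤ ∑ z ∈ A + B, H z := by
    intro h
    rw [add_comm B A] at h
    linarith
  have hH' : ∀ y ∈ B, ∀ x ∈ A, min (G y) (F x) ≤ H (y + x) := by
    intro y hy x hx
    rw [min_comm, add_comm]
    exact hH x hx y hy
  have hH0 : ∀ z ∈ A + B, 0 ≤ H z := by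
    intro z hz
    obtain ⟨x, hx, y, hy, rfl⟩ := Finset.mem_add.mp hz
    exact le_trans (le_min (hF0 x hx) (hG0 y hy)) (hH x hx y hy)
  have hH0' : ∀ z ∈ B + A, 0 ≤ H z := by
    intro z hz
    rw [add_comm B A] at hz
    exact hH0 z hz
  -- one-point cases
  by_cases hA1 : A.card = 1
  · obtain ⟨a, rfl⟩ := Finset.card_eq_one.mp hA1
    obtain ⟨x, hx, hFx⟩ := hFm
    rw [Finset.mem_singleton] at hx
    subst hx
    exact pl_single B F G H x hFx hG1 (fun y hy => hH x (Finset.mem_singleton_self x) y hy)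
  by_cases hB1 : B.card = 1
  · obtain ⟨b, rfl⟩ := Finset.card_eq_one.mp hB1
    obtain ⟨y, hy, hGy⟩ := hGm
    rw [Finset.mem_singleton] at hy
    subst hy
    apply hsymm
    exact pl_single A G F H y hGy hF1 (fun x hx => hH' y (Finset.mem_singleton_self y) x hx)
  have hA2 : 2 ≤ A.card := by
    have := Finset.card_pos.mpr hA; omega
  have hB2 : 2 ≤ B.card := by
    have := Finset.card_pos.mpr hB; omega
  -- removal of a point `a` of `A` (with partner `b`), given the side conditions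
  have remA : ∀ a ∈ A, ∀ b ∈ B, a + b ∉ A.erase a + B → F a ≤ G b →
      (∃ x ∈ A.erase a, F x = 1) →
      ∑ x ∈ A, F x + ∑ y ∈ B, G y - 1 ≤ ∑ z ∈ A + B, H z := by
    intro a ha b hb hab hle hm
    have hne : (A.erase a).Nonempty := by
      obtain ⟨x, hx, _⟩ := hm; exact ⟨x, hx⟩
    have hcard : (A.erase a).card + B.card < n := by
      rw [Finset.card_erase_of_mem ha]; omega
    have ih := IH _ hcard (A.erase a) B F G rfl hne hB
      (fun x hx => hF0 x (Finset.mem_of_mem_erase hx))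
      (fun x hx => hF1 x (Finset.mem_of_mem_erase hx)) hm hG0 hG1 hGm
      (fun x hx y hy => hH x (Finset.mem_of_mem_erase hx) y hy)
    exact pl_step A B F G H a b ha hb hab hle hH0 (hH a ha b hb) ih
  have remB : ∀ b ∈ B, ∀ a ∈ A, b + a ∉ B.erase b + A → G b ≤ F a →
      (∃ y ∈ B.erase b, G y = 1) →
      ∑ x ∈ A, F x + ∑ y ∈ B, G y - 1 ≤ ∑ z ∈ A + B, H z := by
    intro b hb a ha hab hle hm
    apply hsymm
    have hne : (B.erase b).Nonempty := by
      obtain ⟨y, hy, _⟩ := hm; exact ⟨y, hy⟩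
    have hcard : (B.erase b).card + A.card < n := by
      rw [Finset.card_erase_of_mem hb]; omega
    have ih := IH _ hcard (B.erase b) A G F rfl hne hA
      (fun y hy => hG0 y (Finset.mem_of_mem_erase hy))
      (fun y hy => hG1 y (Finset.mem_of_mem_erase hy)) hm hF0 hF1 hFm
      (fun y hy x hx => hH' y (Finset.mem_of_mem_erase hy) x hx)
    exact pl_step B A G F H b a hb ha hab hle hH0' (hH' b hb a ha) ih
  -- extreme points
  set a := A.max' hA with ha_def
  set b := B.max' hB with hb_def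
  set a' := A.min' hA with ha'_def
  set b' := B.min' hB with hb'_def
  have haA : a ∈ A := Finset.max'_mem A hA
  have hbB : b ∈ B := Finset.max'_mem B hB
  have ha'A : a' ∈ A := Finset.min'_mem A hA
  have hb'B : b' ∈ B := Finset.min'_mem B hB
  have habmax : a + b ∉ A.erase a + B := by
    intro h
    obtain ⟨x, hx, y, hy, hxy⟩ := Finset.mem_add.mp h
    have h1 : x ≤ a := Finset.le_max' A x (Finset.mem_of_mem_erase hx)
    have h2 : x ≠ a := Finset.ne_of_mem_erase hx
    have h3 : y ≤ b := Finset.le_max' B y hy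
    have h4 : x < a := lt_of_le_of_ne h1 h2
    omega
  have hbamax : b + a ∉ B.erase b + A := by
    intro h
    obtain ⟨y, hy, x, hx, hxy⟩ := Finset.mem_add.mp h
    have h1 : y ≤ b := Finset.le_max' B y (Finset.mem_of_mem_erase hy)
    have h2 : y ≠ b := Finset.ne_of_mem_erase hy
    have h3 : x ≤ a := Finset.le_max' A x hx
    have h4 : y < b := lt_of_le_of_ne h1 h2
    omega
  have habmin : a' + b' ∉ A.erase a' + B := by
    intro h
    obtain ⟨x, hx, y, hy, hxy⟩ := Finset.mem_add.mp h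
    have h1 : a' ≤ x := Finset.min'_le A x (Finset.mem_of_mem_erase hx)
    have h2 : x ≠ a' := Finset.ne_of_mem_erase hx
    have h3 : b' ≤ y := Finset.min'_le B y hy
    have h4 : a' < x := lt_of_le_of_ne h1 (Ne.symm h2)
    omega
  have hbamin : b' + a' ∉ B.erase b' + A := by
    intro h
    obtain ⟨y, hy, x, hx, hxy⟩ := Finset.mem_add.mp h
    have h1 : b' ≤ y := Finset.min'_le B y (Finset.mem_of_mem_erase hy)
    have h2 : y ≠ b' := Finset.ne_of_mem_erase hy
    have h3 : a' ≤ x := Finset.min'_le A x hx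
    have h4 : b' < y := lt_of_le_of_ne h1 (Ne.symm h2)
    omega
  by_cases c1 : F a ≤ G b ∧ ∃ x ∈ A.erase a, F x = 1
  · exact remA a haA b hbB habmax c1.1 c1.2
  by_cases c2 : G b ≤ F a ∧ ∃ y ∈ B.erase b, G y = 1
  · exact remB b hbB a haA hbamax c2.1 c2.2
  -- now `a` and `b` are the unique maximizers, with value one
  have hFa : F a = 1 ∧ G b = 1 ∧ (¬ ∃ x ∈ A.erase a, F x = 1) ∧ (¬ ∃ y ∈ B.erase b, G y = 1) := by
    by_cases hle : F a ≤ G b
    · have hno : ¬ ∃ x ∈ A.erase a, F x = 1 := fun h => c1 ⟨hle, h⟩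
      obtain ⟨x, hx, hFx⟩ := hFm
      have hxa : x = a := by
        by_contra hne
        exact hno ⟨x, Finset.mem_erase.mpr ⟨hne, hx⟩, hFx⟩
      rw [hxa] at hFx
      have hGb : G b = 1 := le_antisymm (hG1 b hbB) (by rw [← hFx]; exact hle)
      refine ⟨hFx, hGb, hno, fun h => c2 ⟨by rw [hFx, hGb], h⟩⟩
    · exfalso
      push Not at hle
      have hno : ¬ ∃ y ∈ B.erase b, G y = 1 := fun h => c2 ⟨hle.le, h⟩
      obtain ⟨y, hy, hGy⟩ := hGm
      have hyb : y = b := by
        by_contra hne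
        exact hno ⟨y, Finset.mem_erase.mpr ⟨hne, hy⟩, hGy⟩
      rw [hyb] at hGy
      have := hF1 a haA
      linarith
  obtain ⟨hFa1, hGb1, -, -⟩ := hFa
  have haa' : a' ≠ a := by
    intro h
    have hall : ∀ x ∈ A, x = a := by
      intro x hx
      have h1 : x ≤ a := Finset.le_max' A x hx
      have h2 : a' ≤ x := Finset.min'_le A x hx
      omega
    have : A.card ≤ 1 := Finset.card_le_one.mpr (fun x hx y hy => by rw [hall x hx, hall y hy])
    omega
  have hbb' : b' ≠ b := by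
    intro h
    have hall : ∀ y ∈ B, y = b := by
      intro y hy
      have h1 : y ≤ b := Finset.le_max' B y hy
      have h2 : b' ≤ y := Finset.min'_le B y hy
      omega
    have : B.card ≤ 1 := Finset.card_le_one.mpr (fun x hx y hy => by rw [hall x hx, hall y hy])
    omega
  by_cases c3 : F a' ≤ G b'
  · exact remA a' ha'A b' hb'B habmin c3
      ⟨a, Finset.mem_erase.mpr ⟨Ne.symm haa', haA⟩, hFa1⟩
  · push Not at c3
    exact remB b' hb'B a' ha'A hbamin c3.le
      ⟨b, Finset.mem_erase.mpr ⟨Ne.symm hbb', hbB⟩, hGb1⟩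

end Vale.Agent.Lib.P249.H95.PL
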