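import Mathlib
import Vale.Agent.Lib.P249.helper62.GridDefs
import Vale.Agent.Lib.P249.helper95.DiscretePL

/-!
# P249, helper95: backup chain for job GRID-C (`grid_one`) of helper62's grid lower bound

`pl_sq_int`: multiplicative discrete Prekopa-Leindler on the integers with defect one.
`grid_one`: the one-coordinate inequality for the discrete Gaussian weights (exact job form).
-/

namespace Vale.Agent.Lib.P249.H95.PL

open Finset
open scoped Pointwise
open Vale.Agent.Lib.P249.H62

/-- multiplicative discrete Prekopa-Leindler on the integers, with defect one -/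
theorem pl_sq_int (A B : Finset ℤ) (F G H : ℤ → ℝ)
    (hF0 : ∀ x ∈ A, 0 ≤ F x) (hG0 : ∀ y ∈ B, 0 ≤ G y) (hH0 : ∀ z, 0 ≤ H z)
    (hH : ∀ x ∈ A, ∀ y ∈ B, F x * G y ≤ H (x + y) ^ 2)
    (h1 : ∀ x ∈ A, ∀ y ∈ B, F x * G y ≤ 1) :
    4 * ((∑ x ∈ A, F x) * (∑ y ∈ B, G y)) ≤ (∑ z ∈ A + B, H z + 1) ^ 2 := by
  have hSF : 0 ≤ ∑ x ∈ A, F x := Finset.sum_nonneg hF0
  have hSG : 0 ≤ ∑ y ∈ B, G y := Finset.sum_nonneg hG0
  have hSH : 0 ≤ ∑ z ∈ A + B, H z := Finset.sum_nonneg (fun z _ => hH0 z)
  by_cases hF : ∑ x ∈ A, F x = 0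
  · rw [hF, zero_mul, mul_zero]; positivity
  by_cases hG : ∑ y ∈ B, G y = 0
  · rw [hG, mul_zero, mul_zero]; positivity
  have hA : A.Nonempty := by
    by_contra hne
    rw [Finset.not_nonempty_iff_eq_empty] at hne
    exact hF (by rw [hne, Finset.sum_empty])
  have hB : B.Nonempty := by
    by_contra hne
    rw [Finset.not_nonempty_iff_eq_empty] at hne
    exact hG (by rw [hne, Finset.sum_empty])
  obtain ⟨x1, hx1, hx1max⟩ := Finset.exists_max_image A F hA
  obtain ⟨y1, hy1, hy1max⟩ := Finset.exists_max_image B G hB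
  have hmF : 0 < F x1 := by
    by_contra hle
    push Not at hle
    apply hF
    apply Finset.sum_eq_zero
    intro x hx
    exact le_antisymm (le_trans (hx1max x hx) hle) (hF0 x hx)
  have hmG : 0 < G y1 := by
    by_contra hle
    push Not at hle
    apply hG
    apply Finset.sum_eq_zero
    intro y hy
    exact le_antisymm (le_trans (hy1max y hy) hle) (hG0 y hy)
  set mF := F x1 with hmF_def
  set mG := G y1 with hmG_def
  have hm1 : mF * mG ≤ 1 := h1 x1 hx1 y1 hy1
  set r := Real.sqrt (mF * mG) with hr_def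
  have hr0 : 0 < r := Real.sqrt_pos.mpr (mul_pos hmF hmG)
  have hr1 : r ≤ 1 := by
    rw [hr_def]
    calc Real.sqrt (mF * mG) ≤ Real.sqrt 1 := Real.sqrt_le_sqrt hm1
      _ = 1 := Real.sqrt_one
  have hrr : r * r = mF * mG := Real.mul_self_sqrt (mul_pos hmF hmG).le
  have key := pl_int (fun z => H z / r) A B (fun x => F x / mF) (fun y => G y / mG) hA hB
    (fun x hx => div_nonneg (hF0 x hx) hmF.le)
    (fun x hx => by rw [div_le_one hmF]; exact hx1max x hx)
    ⟨x1, hx1, div_self hmF.ne'⟩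
    (fun y hy => div_nonneg (hG0 y hy) hmG.le)
    (fun y hy => by rw [div_le_one hmG]; exact hy1max y hy)
    ⟨y1, hy1, div_self hmG.ne'⟩
    (by
      intro x hx y hy
      have hu : 0 ≤ F x / mF := div_nonneg (hF0 x hx) hmF.le
      have hw : 0 ≤ G y / mG := div_nonneg (hG0 y hy) hmG.le
      have hmin : min (F x / mF) (G y / mG) ≤ Real.sqrt ((F x / mF) * (G y / mG)) := by
        apply Real.le_sqrt_of_sq_le
        rcases le_total (F x / mF) (G y / mG) with hle | hle
        · rw [min_eq_left hle, sq]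
          exact mul_le_mul_of_nonneg_left hle hu
        · rw [min_eq_right hle, sq]
          exact mul_le_mul_of_nonneg_right hle hw
      have hsq : (F x / mF) * (G y / mG) ≤ (H (x + y) / r) ^ 2 := by
        rw [div_pow, sq r, hrr, div_mul_div_comm]
        exact div_le_div_of_nonneg_right (hH x hx y hy) (mul_pos hmF hmG).le
      calc min (F x / mF) (G y / mG) ≤ Real.sqrt ((F x / mF) * (G y / mG)) := hmin
        _ ≤ Real.sqrt ((H (x + y) / r) ^ 2) := Real.sqrt_le_sqrt hsq
        _ = H (x + y) / r := Real.sqrt_sq (div_nonneg (hH0 _) hr0.le))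
  rw [← Finset.sum_div, ← Finset.sum_div, ← Finset.sum_div] at key
  set SF := ∑ x ∈ A, F x with hSF_def
  set SG := ∑ y ∈ B, G y with hSG_def
  set S := ∑ z ∈ A + B, H z with hS_def
  -- key : SF / mF + SG / mG - 1 ≤ S / r
  have h2 : r * (SF / mF + SG / mG) ≤ S + 1 := by
    have h3 : r * (SF / mF + SG / mG - 1) ≤ S := by
      have := mul_le_mul_of_nonneg_left key hr0.le
      rwa [mul_div_cancel₀ S hr0.ne'] at this
    linarith
  have hu : 0 ≤ SF / mF := div_nonneg hSF hmF.le
  have hw : 0 ≤ SG / mG := div_nonneg hSG hmG.le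
  have h4 : 4 * (SF * SG) = 4 * (SF / mF) * (SG / mG) * (r * r) := by
    rw [hrr]; field_simp
  have h5 : 4 * (SF / mF) * (SG / mG) * (r * r) ≤ (r * (SF / mF + SG / mG)) ^ 2 := by
    nlinarith [sq_nonneg (SF / mF - SG / mG), mul_nonneg hr0.le hr0.le]
  have h6 : (r * (SF / mF + SG / mG)) ^ 2 ≤ (S + 1) ^ 2 :=
    pow_le_pow_left₀ (mul_nonneg hr0.le (add_nonneg hu hw)) h2 2
  linarith

/-- splitting a sum over `range (2 m + 1)` into even and odd indices -/
theorem sum_range_even_odd (f : ℕ → ℝ) (m : ℕ) :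
    ∑ z ∈ Finset.range (2 * m + 1), f z
      = ∑ n ∈ Finset.range (m + 1), f (2 * n) + ∑ n ∈ Finset.range m, f (2 * n + 1) := by
  induction m with
  | zero => simp
  | succ m ih =>
    have e : 2 * (m + 1) + 1 = (2 * m + 1) + 1 + 1 := by ring
    rw [e, Finset.sum_range_succ, Finset.sum_range_succ, ih,
      Finset.sum_range_succ (fun n => f (2 * n)) (m + 1),
      Finset.sum_range_succ (fun n => f (2 * n + 1)) m]
    have e2 : 2 * m + 1 + 1 = 2 * (m + 1) := by ring
    rw [e2]
    ring

/-- the sum of the doubled-width Gaussian profile is at most `2 Z + 1` -/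
theorem sum_H_le (M : ℕ) (hM : 1 ≤ M) :
    ∑ z ∈ Finset.range (4 * M + 1), Real.exp (-((z : ℝ) - 2 * M) ^ 2 / (4 * (M : ℝ) ^ 2))
      ≤ 2 * gZ M + 1 := by
  have hMpos : (0 : ℝ) < M := by exact_mod_cast hM
  set ψ : ℕ → ℝ := fun n => Real.exp (-((n : ℝ) - M) ^ 2 / (M : ℝ) ^ 2) with hψ
  have hψ0 : ∀ n, 0 ≤ ψ n := fun n => (Real.exp_pos _).le
  have hZ : gZ M = ∑ n ∈ Finset.range (2 * M + 1), ψ n := by
    unfold gZ gphi gv
    rw [Fin.sum_univ_eq_sum_range (fun n => Real.exp (-((n : ℝ) - M) ^ 2 / (M : ℝ) ^ 2))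
      (2 * M + 1)]
  have e0 : 4 * M + 1 = 2 * (2 * M) + 1 := by ring
  rw [e0, sum_range_even_odd]
  -- even part
  have heven : ∑ n ∈ Finset.range (2 * M + 1),
      Real.exp (-(((2 * n : ℕ) : ℝ) - 2 * M) ^ 2 / (4 * (M : ℝ) ^ 2)) = gZ M := by
    rw [hZ]
    refine Finset.sum_congr rfl (fun n _ => ?_)
    simp only [hψ]
    congr 1
    push_cast
    field_simp
    ring
  -- odd part
  have hodd : ∀ n : ℕ, Real.exp (-(((2 * n + 1 : ℕ) : ℝ) - 2 * M) ^ 2 / (4 * (M : ℝ) ^ 2))
      ≤ if M ≤ n then ψ n else ψ (n + 1) := by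
    intro n
    split_ifs with hn
    · simp only [hψ]
      apply Real.exp_le_exp.mpr
      have hn' : (M : ℝ) ≤ n := by exact_mod_cast hn
      rw [div_le_div_iff₀ (by positivity) (by positivity)]
      push_cast
      nlinarith [sq_nonneg ((n : ℝ) - M), mul_nonneg (sub_nonneg.mpr hn') (sq_nonneg (M : ℝ)),
        sq_nonneg (M : ℝ)]
    · simp only [hψ]
      apply Real.exp_le_exp.mpr
      push Not at hn
      have hn' : (n : ℝ) + 1 ≤ M := by exact_mod_cast hn
      rw [div_le_div_iff₀ (by positivity) (by positivity)]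
      push_cast
      nlinarith [sq_nonneg ((n : ℝ) + 1 - M), mul_nonneg (sub_nonneg.mpr hn') (sq_nonneg (M : ℝ)),
        sq_nonneg (M : ℝ)]
  have hoddsum : ∑ n ∈ Finset.range (2 * M),
      Real.exp (-(((2 * n + 1 : ℕ) : ℝ) - 2 * M) ^ 2 / (4 * (M : ℝ) ^ 2)) ≤ gZ M + 1 := by
    calc ∑ n ∈ Finset.range (2 * M),
          Real.exp (-(((2 * n + 1 : ℕ) : ℝ) - 2 * M) ^ 2 / (4 * (M : ℝ) ^ 2))
        ≤ ∑ n ∈ Finset.range (2 * M), (if M ≤ n then ψ n else ψ (n + 1)) :=
          Finset.sum_le_sum (fun n _ => hodd n)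
      _ = ∑ n ∈ Finset.range M, (if M ≤ n then ψ n else ψ (n + 1))
            + ∑ n ∈ Finset.Ico M (2 * M), (if M ≤ n then ψ n else ψ (n + 1)) :=
          (Finset.sum_range_add_sum_Ico _ (by omega)).symm
      _ = ∑ n ∈ Finset.range M, ψ (n + 1) + ∑ n ∈ Finset.Ico M (2 * M), ψ n := by
          congr 1
          · refine Finset.sum_congr rfl (fun n hn => ?_)
            rw [Finset.mem_range] at hn
            rw [if_neg (by omega)]
          · refine Finset.sum_congr rfl (fun n hn => ?_)
            rw [Finset.mem_Ico] at hn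
            rw [if_pos hn.1]
      _ ≤ ∑ n ∈ Finset.range (M + 1), ψ n + ∑ n ∈ Finset.Ico M (2 * M + 1), ψ n := by
          apply add_le_add
          · rw [Finset.sum_range_succ' ψ M]
            linarith [hψ0 0]
          · apply Finset.sum_le_sum_of_subset_of_nonneg
            · exact Finset.Ico_subset_Ico_right (by omega)
            · intro n _ _; exact hψ0 n
      _ = gZ M + 1 := by
          rw [Finset.sum_range_succ ψ M, hZ, ← Finset.sum_range_add_sum_Ico ψ (show M ≤ 2 * M + 1 by omega)]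
          have : ψ M = 1 := by simp [hψ]
          rw [this]; ring
  linarith [heven, hoddsum]

/-- **Job GRID-C** (exact statement): the one-coordinate inequality with discrete Gaussian
weights. -/
theorem grid_one (M : ℕ) (hM : 1 ≤ M) (a b : Fin (2 * M + 1) → ℝ) (N : ℝ)
    (ha : ∀ t, 0 ≤ a t) (hb : ∀ t, 0 ≤ b t) (hN : 0 ≤ N)
    (h : ∀ t t', b t * a t' ≤ N * Real.exp ((gv M t - gv M t') ^ 2 / (2 * (M : ℝ) ^ 2))) :
    (∑ t, gphi M t * b t) * (∑ t, gphi M t * a t) ≤ N * (gZ M + 1) ^ 2 := by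
  have hMpos : (0 : ℝ) < M := by exact_mod_cast hM
  have hphi0 : ∀ t, 0 ≤ gphi M t := fun t => (Real.exp_pos _).le
  rcases hN.eq_or_lt with hN0 | hNpos
  · have hz : ∀ t t', b t * a t' = 0 := fun t t' =>
      le_antisymm (by have := h t t'; rw [← hN0, zero_mul] at this; exact this)
        (mul_nonneg (hb t) (ha t'))
    rw [← hN0, zero_mul, Finset.sum_mul_sum]
    apply le_of_eq
    apply Finset.sum_eq_zero
    intro t _
    apply Finset.sum_eq_zero
    intro t' _
    rw [mul_mul_mul_comm, hz, mul_zero]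
  · set enc : Fin (2 * M + 1) → ℤ := fun t => ((t : ℕ) : ℤ) with henc_def
    have henc : Function.Injective enc := by
      intro s t hst
      have hst' : ((s : ℕ) : ℤ) = ((t : ℕ) : ℤ) := hst
      exact Fin.ext (by exact_mod_cast hst')
    set A : Finset ℤ := Finset.univ.image enc with hA_def
    set F : ℤ → ℝ := fun z => ∑ t, if enc t = z then gphi M t * b t / N else 0 with hF_def
    set G : ℤ → ℝ := fun z => ∑ t, if enc t = z then gphi M t * a t else 0 with hG_def
    set H : ℤ → ℝ := fun z => Real.exp (-((z : ℝ) - 2 * M) ^ 2 / (4 * (M : ℝ) ^ 2)) with hH_def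
    have hFenc : ∀ t, F (enc t) = gphi M t * b t / N := by
      intro t
      simp only [hF_def]
      rw [Finset.sum_eq_single t]
      · rw [if_pos rfl]
      · intro t' _ hne
        rw [if_neg (fun hh => hne (henc hh))]
      · intro hh; exact absurd (Finset.mem_univ t) hh
    have hGenc : ∀ t, G (enc t) = gphi M t * a t := by
      intro t
      simp only [hG_def]
      rw [Finset.sum_eq_single t]
      · rw [if_pos rfl]
      · intro t' _ hne
        rw [if_neg (fun hh => hne (henc hh))]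
      · intro hh; exact absurd (Finset.mem_univ t) hh
    have hsumF : ∑ x ∈ A, F x = (∑ t, gphi M t * b t) / N := by
      rw [hA_def, Finset.sum_image (fun s _ t _ hst => henc hst), Finset.sum_div]
      exact Finset.sum_congr rfl (fun t _ => hFenc t)
    have hsumG : ∑ y ∈ A, G y = ∑ t, gphi M t * a t := by
      rw [hA_def, Finset.sum_image (fun s _ t _ hst => henc hst)]
      exact Finset.sum_congr rfl (fun t _ => hGenc t)
    have hkey : ∀ t t', F (enc t) * G (enc t') ≤ H (enc t + enc t') ^ 2 ∧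
        F (enc t) * G (enc t') ≤ 1 := by
      intro t t'
      rw [hFenc, hGenc]
      have h0 := h t t'
      have e1 : gphi M t * b t / N * (gphi M t' * a t')
          = gphi M t * gphi M t' * ((b t * a t') / N) := by ring
      have e2 : (b t * a t') / N ≤ Real.exp ((gv M t - gv M t') ^ 2 / (2 * (M : ℝ) ^ 2)) := by
        rw [div_le_iff₀ hNpos]; linarith
      have e3 : gphi M t * gphi M t' * Real.exp ((gv M t - gv M t') ^ 2 / (2 * (M : ℝ) ^ 2))
          = Real.exp (-(gv M t + gv M t') ^ 2 / (2 * (M : ℝ) ^ 2)) := by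
        unfold gphi
        rw [← Real.exp_add, ← Real.exp_add]
        congr 1
        field_simp
        ring
      have e4 : H (enc t + enc t') ^ 2
          = Real.exp (-(gv M t + gv M t') ^ 2 / (2 * (M : ℝ) ^ 2)) := by
        simp only [hH_def, henc_def]
        rw [sq, ← Real.exp_add]
        congr 1
        unfold gv
        push_cast
        field_simp
        ring
      have hle : gphi M t * b t / N * (gphi M t' * a t')
          ≤ Real.exp (-(gv M t + gv M t') ^ 2 / (2 * (M : ℝ) ^ 2)) := by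
        rw [e1, ← e3]
        exact mul_le_mul_of_nonneg_left e2 (mul_nonneg (hphi0 t) (hphi0 t'))
      refine ⟨by rw [e4]; exact hle, le_trans hle ?_⟩
      rw [Real.exp_le_one_iff]
      apply div_nonpos_of_nonpos_of_nonneg
      · nlinarith [sq_nonneg (gv M t + gv M t')]
      · positivity
    have hpl := pl_sq_int A A F G H
      (fun x hx => by
        obtain ⟨t, _, rfl⟩ := Finset.mem_image.mp hx
        rw [hFenc]
        exact div_nonneg (mul_nonneg (hphi0 t) (hb t)) hNpos.le)
      (fun y hy => by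
        obtain ⟨t, _, rfl⟩ := Finset.mem_image.mp hy
        rw [hGenc]
        exact mul_nonneg (hphi0 t) (ha t))
      (fun z => (Real.exp_pos _).le)
      (fun x hx y hy => by
        obtain ⟨t, _, rfl⟩ := Finset.mem_image.mp hx
        obtain ⟨t', _, rfl⟩ := Finset.mem_image.mp hy
        exact (hkey t t').1)
      (fun x hx y hy => by
        obtain ⟨t, _, rfl⟩ := Finset.mem_image.mp hx
        obtain ⟨t', _, rfl⟩ := Finset.mem_image.mp hy
        exact (hkey t t').2)
    rw [hsumF, hsumG] at hpl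
    have hHsum : ∑ z ∈ A + A, H z ≤ 2 * gZ M + 1 := by
      have hsub : A + A ⊆ (Finset.range (4 * M + 1)).image (fun n : ℕ => (n : ℤ)) := by
        intro z hz
        obtain ⟨x, hx, y, hy, rfl⟩ := Finset.mem_add.mp hz
        obtain ⟨t, _, rfl⟩ := Finset.mem_image.mp hx
        obtain ⟨t', _, rfl⟩ := Finset.mem_image.mp hy
        refine Finset.mem_image.mpr ⟨(t : ℕ) + (t' : ℕ), ?_, by simp [henc_def]⟩
        have h1 := t.isLt
        have h2 := t'.isLt
        rw [Finset.mem_range]
        omega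
      calc ∑ z ∈ A + A, H z
          ≤ ∑ z ∈ (Finset.range (4 * M + 1)).image (fun n : ℕ => (n : ℤ)), H z :=
            Finset.sum_le_sum_of_subset_of_nonneg hsub (fun z _ _ => (Real.exp_pos _).le)
        _ = ∑ n ∈ Finset.range (4 * M + 1),
              Real.exp (-((n : ℝ) - 2 * M) ^ 2 / (4 * (M : ℝ) ^ 2)) := by
            rw [Finset.sum_image (fun x _ y _ hxy => by exact_mod_cast hxy)]
            refine Finset.sum_congr rfl (fun n _ => ?_)
            simp [hH_def]
        _ ≤ 2 * gZ M + 1 := sum_H_le M hM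
    have hS0 : 0 ≤ ∑ z ∈ A + A, H z := Finset.sum_nonneg (fun z _ => (Real.exp_pos _).le)
    have hZ0 : 0 ≤ gZ M := Finset.sum_nonneg (fun t _ => hphi0 t)
    have h7 : (∑ z ∈ A + A, H z + 1) ^ 2 ≤ (2 * gZ M + 2) ^ 2 :=
      pow_le_pow_left₀ (by linarith) (by linarith) 2
    have h9 : (∑ t, gphi M t * b t) / N * ∑ t, gphi M t * a t ≤ (gZ M + 1) ^ 2 := by
      have h8 : (2 * gZ M + 2) ^ 2 = 4 * (gZ M + 1) ^ 2 := by ring
      linarith
    have h10 : (∑ t, gphi M t * b t) * (∑ t, gphi M t * a t)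
        = N * ((∑ t, gphi M t * b t) / N * ∑ t, gphi M t * a t) := by
      field_simp
    rw [h10]
    exact mul_le_mul_of_nonneg_left h9 hNpos.le

end Vale.Agent.Lib.P249.H95.PL
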