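import Mathlib

/-!
# P249, helper95: from the grid lower bound at n = (6k+1)^k to every n ≥ 7

all_n_of_grid: if for every k ≥ 1 there are (6k+1)^k distinct points of l_p^m such that
every embedding into l_p^d with distortion D satisfies
(1/11) * (2k/(3p^2))^(p/2) ≤ D^p * d (the statement of helper62's grid hand-in), then for EVERY
n ≥ 7 there are n distinct points of some l_p^m such that every embedding into l_p^d
with distortion D satisfies (1/11) * (log n / (3 p^2 log (10 log n)))^(p/2) ≤ D^p * d.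

Proof: take k with (6k+1)^k ≤ n < (6k+7)^(k+1), add n - (6k+1)^k further distinct points
of the same space, restrict a given embedding to the grid points, and use
log n / log (10 log n) ≤ 2k.
-/

namespace Vale.Agent.Lib.P249.H95.AllN

/-- choice of k with (6k+1)^k ≤ n < (6k+7)^(k+1) -/
theorem exists_k (n : ℕ) (hn : 7 ≤ n) :
    ∃ k : ℕ, 1 ≤ k ∧ (6 * k + 1) ^ k ≤ n ∧ n < (6 * k + 7) ^ (k + 1) := by
  have hex : ∃ j : ℕ, n < (6 * j + 7) ^ (j + 1) := by
    refine ⟨n, ?_⟩
    calc n < 2 ^ n := Nat.lt_two_pow_self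
      _ ≤ (6 * n + 7) ^ n := Nat.pow_le_pow_left (by omega) n
      _ ≤ (6 * n + 7) ^ (n + 1) := Nat.pow_le_pow_right (by omega) (by omega)
  classical
  have hj0 : n < (6 * Nat.find hex + 7) ^ (Nat.find hex + 1) := Nat.find_spec hex
  have hpos : 1 ≤ Nat.find hex := by
    by_contra h
    have h0 : Nat.find hex = 0 := by omega
    rw [h0] at hj0
    norm_num at hj0
    omega
  have hmin : ¬ n < (6 * (Nat.find hex - 1) + 7) ^ (Nat.find hex - 1 + 1) :=
    Nat.find_min hex (by omega)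
  refine ⟨Nat.find hex, hpos, ?_, hj0⟩
  have e : 6 * (Nat.find hex - 1) + 7 = 6 * Nat.find hex + 1 := by omega
  have e2 : Nat.find hex - 1 + 1 = Nat.find hex := by omega
  rw [e, e2] at hmin
  exact not_lt.mp hmin

/-- the numerical comparison `log n / log (10 log n) ≤ 2k` -/
theorem numeric (n k : ℕ) (hn : 7 ≤ n) (hk : 1 ≤ k) (h1 : (6 * k + 1) ^ k ≤ n)
    (h2 : n < (6 * k + 7) ^ (k + 1)) :
    Real.log n / Real.log (10 * Real.log n) ≤ 2 * k ∧ 0 < Real.log (10 * Real.log n) ∧
      0 < Real.log n := by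
  have hl2 : (0.69 : ℝ) < Real.log 2 := by
    have := Real.log_two_gt_d9; linarith
  have hn7 : (7 : ℝ) ≤ n := by exact_mod_cast hn
  have hnpos : (0 : ℝ) < n := by linarith
  -- log n ≥ log 4 = 2 log 2
  have hl4 : Real.log 4 = 2 * Real.log 2 := by
    rw [show (4 : ℝ) = 2 ^ 2 by norm_num, Real.log_pow]; norm_num
  have hln : 2 * Real.log 2 ≤ Real.log n := by
    rw [← hl4]
    exact Real.log_le_log (by norm_num) (by linarith)
  -- k * log 4 ≤ log n
  have hk4 : (k : ℝ) * (2 * Real.log 2) ≤ Real.log n := by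
    have h4 : (4 : ℝ) ^ k ≤ n := by
      have h5 : (4 : ℕ) ^ k ≤ (6 * k + 1) ^ k := Nat.pow_le_pow_left (by omega) k
      exact_mod_cast le_trans h5 h1
    have := Real.log_le_log (by positivity) h4
    rw [Real.log_pow, hl4] at this
    exact this
  have hkpos : (1 : ℝ) ≤ k := by exact_mod_cast hk
  have hl : 0 < Real.log n := by linarith
  -- 6k + 7 ≤ 10 log n
  have h67 : (6 * (k : ℝ) + 7) ≤ 10 * Real.log n := by
    have hk' : (k : ℝ) * 1.38 ≤ Real.log n := by
      have : (k : ℝ) * 1.38 ≤ (k : ℝ) * (2 * Real.log 2) := by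
        apply mul_le_mul_of_nonneg_left _ (by positivity)
        linarith
      linarith
    have hln' : (1.38 : ℝ) ≤ Real.log n := by linarith
    linarith
  have hLpos : 0 < Real.log (10 * Real.log n) := by
    apply Real.log_pos
    linarith
  -- log n < (k+1) log (6k+7)
  have hlt : Real.log n < ((k : ℝ) + 1) * Real.log (6 * (k : ℝ) + 7) := by
    have h3 : (n : ℝ) < (6 * (k : ℝ) + 7) ^ (k + 1) := by exact_mod_cast h2
    have := Real.log_lt_log hnpos h3
    rw [Real.log_pow] at this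
    push_cast at this
    exact this
  have hle : Real.log (6 * (k : ℝ) + 7) ≤ Real.log (10 * Real.log n) :=
    Real.log_le_log (by positivity) h67
  refine ⟨?_, hLpos, hl⟩
  rw [div_le_iff₀ hLpos]
  have h8 : ((k : ℝ) + 1) * Real.log (6 * (k : ℝ) + 7)
      ≤ ((k : ℝ) + 1) * Real.log (10 * Real.log n) :=
    mul_le_mul_of_nonneg_left hle (by positivity)
  have h9 : ((k : ℝ) + 1) * Real.log (10 * Real.log n)
      ≤ 2 * (k : ℝ) * Real.log (10 * Real.log n) :=
    mul_le_mul_of_nonneg_right (by linarith) hLpos.le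
  linarith

/-- an injective family of `N` points of an infinite type extends to an injective family of
`n ≥ N` points -/
theorem extend_injective {E : Type*} [Infinite E] (N n : ℕ) (hNn : N ≤ n) (x0 : Fin N → E)
    (h0 : Function.Injective x0) :
    ∃ x : Fin n → E, Function.Injective x ∧ ∀ i : Fin N, x (Fin.castLE hNn i) = x0 i := by
  classical
  have hfin : (Set.range x0).Finite := Set.finite_range x0
  have hinf : (Set.range x0)ᶜ.Infinite := hfin.infinite_compl
  set emb := hinf.natEmbedding with hemb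
  refine ⟨fun i => if h : (i : ℕ) < N then x0 ⟨i, h⟩ else (emb ((i : ℕ) - N) : E), ?_, ?_⟩
  · intro i j hij
    by_cases hi : (i : ℕ) < N <;> by_cases hj : (j : ℕ) < N
    · simp only [dif_pos hi, dif_pos hj] at hij
      have h := h0 hij
      exact Fin.ext (by simpa using congrArg Fin.val h)
    · simp only [dif_pos hi, dif_neg hj] at hij
      exfalso
      exact (emb ((j : ℕ) - N)).2 ⟨⟨i, hi⟩, hij⟩
    · simp only [dif_neg hi, dif_pos hj] at hij
      exfalso
      exact (emb ((i : ℕ) - N)).2 ⟨⟨j, hj⟩, hij.symm⟩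
    · simp only [dif_neg hi, dif_neg hj] at hij
      have h := emb.injective (Subtype.ext hij)
      exact Fin.ext (by omega)
  · intro i
    have hi : ((Fin.castLE hNn i : Fin n) : ℕ) < N := by simp
    simp only [dif_pos hi]
    congr 1

/-- **From `n = (6k+1)^k` to every `n ≥ 7`.** -/
theorem all_n_of_grid (p : ENNReal) [Fact (1 ≤ p)] (hp : p ≠ ⊤)
    (hgrid : ∀ k : ℕ, 1 ≤ k →
      ∃ (m : ℕ) (x : Fin ((6 * k + 1) ^ k) → PiLp p (fun _ : Fin m => ℝ)), Function.Injective x ∧
        ∀ (d : ℕ) (y : Fin ((6 * k + 1) ^ k) → PiLp p (fun _ : Fin d => ℝ)) (s D : ℝ), 0 < s →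
          (∀ i j, s * dist (x i) (x j) ≤ dist (y i) (y j) ∧
            dist (y i) (y j) ≤ D * s * dist (x i) (x j)) →
          (1 / 11 : ℝ) * (2 * k / (3 * p.toReal ^ 2)) ^ (p.toReal / 2) ≤ D ^ p.toReal * d)
    (n : ℕ) (hn : 7 ≤ n) :
    ∃ (m : ℕ) (x : Fin n → PiLp p (fun _ : Fin m => ℝ)), Function.Injective x ∧
      ∀ (d : ℕ) (y : Fin n → PiLp p (fun _ : Fin d => ℝ)) (s D : ℝ), 0 < s →
        (∀ i j, s * dist (x i) (x j) ≤ dist (y i) (y j) ∧
          dist (y i) (y j) ≤ D * s * dist (x i) (x j)) →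
        (1 / 11 : ℝ) * (Real.log n / (3 * p.toReal ^ 2 * Real.log (10 * Real.log n)))
            ^ (p.toReal / 2) ≤ D ^ p.toReal * d := by
  obtain ⟨k, hk, hk1, hk2⟩ := exists_k n hn
  obtain ⟨m, x0, hx0, hemb⟩ := hgrid k hk
  have hN7 : 7 ≤ (6 * k + 1) ^ k := by
    calc 7 = 7 ^ 1 := by norm_num
      _ ≤ (6 * k + 1) ^ 1 := Nat.pow_le_pow_left (by omega) 1
      _ ≤ (6 * k + 1) ^ k := Nat.pow_le_pow_right (by omega) hk
  have hv : x0 ⟨0, by omega⟩ - x0 ⟨1, by omega⟩ ≠ 0 := by
    rw [sub_ne_zero]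
    intro h
    have h' := hx0 h
    simp [Fin.ext_iff] at h'
  have : Infinite (PiLp p (fun _ : Fin m => ℝ)) :=
    Infinite.of_injective (fun t : ℝ => t • (x0 ⟨0, by omega⟩ - x0 ⟨1, by omega⟩))
      (smul_left_injective ℝ hv)
  obtain ⟨x, hx, hxx0⟩ := extend_injective ((6 * k + 1) ^ k) n hk1 x0 hx0
  refine ⟨m, x, hx, ?_⟩
  intro d y s D hs hy
  have key := hemb d (fun i => y (Fin.castLE hk1 i)) s D hs (fun i j => by
    have h := hy (Fin.castLE hk1 i) (Fin.castLE hk1 j)
    rw [hxx0, hxx0] at h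
    exact h)
  obtain ⟨hnum, hLpos, hlpos⟩ := numeric n k hn hk hk1 hk2
  have hp1 : (1 : ENNReal) ≤ p := Fact.out
  have hq : 0 < p.toReal := ENNReal.toReal_pos (by
    intro h0; rw [h0] at hp1; exact absurd hp1 (by norm_num)) hp
  refine le_trans ?_ key
  apply mul_le_mul_of_nonneg_left _ (by norm_num)
  apply Real.rpow_le_rpow (by positivity) _ (by positivity)
  rw [div_le_div_iff₀ (by positivity) (by positivity)]
  have h3 : Real.log n ≤ 2 * (k : ℝ) * Real.log (10 * Real.log n) :=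
    (div_le_iff₀ hLpos).mp hnum
  have hq2 : 0 ≤ 3 * p.toReal ^ 2 := by positivity
  nlinarith [mul_le_mul_of_nonneg_left h3 hq2]

end Vale.Agent.Lib.P249.H95.AllN
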