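import Mathlib

/-!
# P249: pair sensitivity without a logarithm (nearest-neighbour walk)

Let `d` be a pseudometric on a finite type `V` and `S x K` a set of `K` nearest neighbours of
`x` (`min K (card V)` points, every point outside at least as far from `x` as every point
inside). With the absolute weights

  `phi x y = ∑_{l = 1}^{card V + 1} (2 L)^(-l) * [y ∈ S x (L^l)]`   (row sums at most `1`),

every function `g` that is constant on the classes `d = 0` satisfies, for all `i`, `j`,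

  `|g i - g j|^p ≤ C^p * d i j^p * ∑_{x, y} phi x y * |g x - g y|^p / d x y^p`,

`C = 16 + (2 L)^(1/p)`, as soon as `p ≥ 1` and `L ≥ 2 * 10^p`.

The proof follows the walk that moves from a point to a uniform one of its `L^(k+1)` nearest
neighbours at step `k`, started from `i` and from `j`, until the two clouds are mutual
nearest neighbours; each step and the final meeting are controlled by convexity (Jensen).
-/

namespace Vale.Agent.Lib.P249.H95.Knn

open Finset

section NN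

variable {V : Type*} [Fintype V] [DecidableEq V]

theorem exists_nn_aux (f : V → ℝ) (K : ℕ) :
    ∃ s : Finset V, s.card = min K (Fintype.card V) ∧ ∀ y, y ∉ s → ∀ z ∈ s, f z ≤ f y := by
  induction K with
  | zero => exact ⟨∅, by simp, by simp⟩
  | succ K ih =>
    obtain ⟨s, hs1, hs2⟩ := ih
    by_cases hfull : s = univ
    · refine ⟨s, ?_, hs2⟩
      have h : s.card = Fintype.card V := by rw [hfull, card_univ]
      omega
    · have hne : sᶜ.Nonempty := by
        rw [nonempty_iff_ne_empty]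
        intro h
        exact hfull ((compl_eq_empty_iff s).mp h)
      obtain ⟨w, hw, hwmin⟩ := exists_min_image sᶜ f hne
      have hws : w ∉ s := mem_compl.mp hw
      have hlt : s.card < Fintype.card V := card_lt_univ_of_notMem hws
      refine ⟨insert w s, ?_, ?_⟩
      · rw [card_insert_of_notMem hws]
        omega
      · intro y hy z hz
        rw [mem_insert, not_or] at hy
        rcases mem_insert.mp hz with h | h
        · rw [h]
          exact hwmin y (mem_compl.mpr hy.2)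
        · exact hs2 y hy.2 z h

/-- Nearest-neighbour sets exist. -/
theorem exists_nn (d : V → V → ℝ) :
    ∃ S : V → ℕ → Finset V, (∀ x K, (S x K).card = min K (Fintype.card V)) ∧
      ∀ x K y, y ∉ S x K → ∀ z ∈ S x K, d x z ≤ d x y := by
  choose S h1 h2 using fun (x : V) (K : ℕ) => exists_nn_aux (d x) K
  exact ⟨S, h1, h2⟩

/-- If some point within `R` of `x0` is missing from the `K` nearest neighbours of `x0` and
`z` is within `R` of `x0`, then the `K` nearest neighbours of `z` lie within `2 R` of `z`. -/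
theorem nn_ball {d : V → V → ℝ} (htri : ∀ x y z, d x z ≤ d x y + d y z)
    {S : V → ℕ → Finset V} (hS1 : ∀ x K, (S x K).card = min K (Fintype.card V))
    (hS2 : ∀ x K y, y ∉ S x K → ∀ z ∈ S x K, d x z ≤ d x y) {K : ℕ} {x0 y0 z : V} {R : ℝ}
    (hy0 : y0 ∉ S x0 K) (hd0 : d x0 y0 ≤ R) (hz : d z x0 ≤ R) :
    ∀ w ∈ S z K, d z w ≤ 2 * R := by
  intro w hw
  by_contra hcon
  push Not at hcon
  have hsub : ∀ u ∈ S x0 K, d z u ≤ 2 * R := by
    intro u hu
    have h1 := hS2 x0 K y0 hy0 u hu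
    have h2 := htri z x0 u
    linarith
  have hwn : w ∉ S x0 K := fun h => by
    have := hsub w h
    linarith
  have hex : ∃ u ∈ S x0 K, u ∉ S z K := by
    by_contra hno
    push Not at hno
    have hss : S x0 K ⊆ S z K := fun u hu => hno u hu
    have heq := eq_of_subset_of_card_le hss (by rw [hS1, hS1])
    rw [heq] at hwn
    exact hwn hw
  obtain ⟨u, hu, hun⟩ := hex
  have h1 := hS2 z K u hun w hw
  have h2 := hsub u hu
  linarith

end NN

section Core

variable {V : Type*} [Fintype V] [DecidableEq V]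

/-- The absolute weights. -/
noncomputable def phi (S : V → ℕ → Finset V) (L : ℕ) (x y : V) : ℝ :=
  ∑ l ∈ range (Fintype.card V + 1),
    (1 / (2 * (L : ℝ))) ^ (l + 1) * (if y ∈ S x (L ^ (l + 1)) then 1 else 0)

theorem phi_nonneg (S : V → ℕ → Finset V) (L : ℕ) (x y : V) : 0 ≤ phi S L x y := by
  unfold phi
  apply sum_nonneg
  intro l _
  apply mul_nonneg (pow_nonneg (by positivity) _)
  split_ifs <;> norm_num

theorem phi_ge (S : V → ℕ → Finset V) (L : ℕ) {x y : V} {k : ℕ} (hk : k ≤ Fintype.card V)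
    (hy : y ∈ S x (L ^ (k + 1))) : (1 / (2 * (L : ℝ))) ^ (k + 1) ≤ phi S L x y := by
  unfold phi
  have h := single_le_sum
    (f := fun l => (1 / (2 * (L : ℝ))) ^ (l + 1) * (if y ∈ S x (L ^ (l + 1)) then (1 : ℝ) else 0))
    (s := range (Fintype.card V + 1))
    (fun l _ => mul_nonneg (pow_nonneg (by positivity) _) (by split_ifs <;> norm_num))
    (mem_range.mpr (by omega : k < Fintype.card V + 1))
  simpa [hy] using h

theorem geom_half (m : ℕ) : ∑ l ∈ range m, (1 / 2 : ℝ) ^ (l + 1) = 1 - (1 / 2) ^ m := by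
  induction m with
  | zero => simp
  | succ m ih =>
    rw [sum_range_succ, ih]
    ring

theorem phi_row_sum (S : V → ℕ → Finset V)
    (hS1 : ∀ x K, (S x K).card = min K (Fintype.card V)) (L : ℕ) (hL : 1 ≤ L) (x : V) :
    ∑ y, phi S L x y ≤ 1 := by
  unfold phi
  rw [sum_comm]
  have h : ∀ l ∈ range (Fintype.card V + 1),
      ∑ y, (1 / (2 * (L : ℝ))) ^ (l + 1) * (if y ∈ S x (L ^ (l + 1)) then (1 : ℝ) else 0)
        ≤ (1 / 2 : ℝ) ^ (l + 1) := by
    intro l _
    rw [← mul_sum]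
    have hc : ∑ y, (if y ∈ S x (L ^ (l + 1)) then (1 : ℝ) else 0)
        = ((S x (L ^ (l + 1))).card : ℝ) := by
      rw [sum_ite_mem, univ_inter, sum_const, nsmul_eq_mul, mul_one]
    rw [hc, hS1]
    have hL' : (0 : ℝ) < L := by exact_mod_cast hL
    have hmin : ((min (L ^ (l + 1)) (Fintype.card V) : ℕ) : ℝ) ≤ (L : ℝ) ^ (l + 1) := by
      exact_mod_cast Nat.min_le_left _ _
    calc (1 / (2 * (L : ℝ))) ^ (l + 1) * ((min (L ^ (l + 1)) (Fintype.card V) : ℕ) : ℝ)
        ≤ (1 / (2 * (L : ℝ))) ^ (l + 1) * (L : ℝ) ^ (l + 1) :=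
          mul_le_mul_of_nonneg_left hmin (by positivity)
      _ = (1 / 2 : ℝ) ^ (l + 1) := by
          rw [← mul_pow]
          congr 1
          field_simp
  calc ∑ l ∈ range (Fintype.card V + 1),
        ∑ y, (1 / (2 * (L : ℝ))) ^ (l + 1) * (if y ∈ S x (L ^ (l + 1)) then (1 : ℝ) else 0)
      ≤ ∑ l ∈ range (Fintype.card V + 1), (1 / 2 : ℝ) ^ (l + 1) := sum_le_sum h
    _ = 1 - (1 / 2) ^ (Fintype.card V + 1) := geom_half _
    _ ≤ 1 := by
        have : (0 : ℝ) ≤ (1 / 2) ^ (Fintype.card V + 1) := by positivity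
        linarith

/-- The weighted sum of the normalised `p`-th power differences of `g`. -/
noncomputable def TT (d : V → V → ℝ) (S : V → ℕ → Finset V) (L : ℕ) (p : ℝ) (g : V → ℝ) : ℝ :=
  ∑ e : V × V, phi S L e.1 e.2 * (|g e.1 - g e.2| ^ p / d e.1 e.2 ^ p)

theorem TT_nonneg (d : V → V → ℝ) (hd0 : ∀ x y, 0 ≤ d x y) (S : V → ℕ → Finset V) (L : ℕ)
    (p : ℝ) (g : V → ℝ) : 0 ≤ TT d S L p g := by
  unfold TT
  apply sum_nonneg
  intro e _
  exact mul_nonneg (phi_nonneg S L _ _)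
    (div_nonneg (Real.rpow_nonneg (abs_nonneg _) _) (Real.rpow_nonneg (hd0 _ _) _))

/-- Jensen's inequality for a probability vector on pairs which is dominated by `c * phi`
and lives on pairs at distance at most `R`. -/
theorem jensen_dom {d : V → V → ℝ} (hd0 : ∀ x y, 0 ≤ d x y) (S : V → ℕ → Finset V) (L : ℕ)
    {p : ℝ} (hp : 1 ≤ p) (g : V → ℝ) (hg : ∀ x y, d x y = 0 → g x = g y) (w : V × V → ℝ)
    (hw0 : ∀ e, 0 ≤ w e) (hw1 : ∑ e, w e = 1) (c R : ℝ) (hc : 0 ≤ c) (hR : 0 ≤ R)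
    (hdom : ∀ e, w e ≠ 0 → w e ≤ c * phi S L e.1 e.2 ∧ d e.1 e.2 ≤ R) :
    |∑ e, w e * (g e.2 - g e.1)| ^ p ≤ c * R ^ p * TT d S L p g := by
  have hp0 : 0 < p := by linarith
  have h1 : |∑ e, w e * (g e.2 - g e.1)| ≤ ∑ e, w e * |g e.2 - g e.1| := by
    refine le_trans (abs_sum_le_sum_abs _ _) (le_of_eq ?_)
    refine sum_congr rfl (fun e _ => ?_)
    rw [abs_mul, abs_of_nonneg (hw0 e)]
  have h2 := Real.rpow_arith_mean_le_arith_mean_rpow univ w (fun e => |g e.2 - g e.1|)
    (fun e _ => hw0 e) hw1 (fun e _ => abs_nonneg _) hp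
  have h3 : ∀ e ∈ (univ : Finset (V × V)), w e * |g e.2 - g e.1| ^ p ≤
      c * R ^ p * (phi S L e.1 e.2 * (|g e.1 - g e.2| ^ p / d e.1 e.2 ^ p)) := by
    intro e _
    have hr0 : 0 ≤ |g e.1 - g e.2| ^ p / d e.1 e.2 ^ p :=
      div_nonneg (Real.rpow_nonneg (abs_nonneg _) _) (Real.rpow_nonneg (hd0 _ _) _)
    by_cases hwe : w e = 0
    · rw [hwe, zero_mul]
      exact mul_nonneg (mul_nonneg hc (Real.rpow_nonneg hR _))
        (mul_nonneg (phi_nonneg S L _ _) hr0)
    · obtain ⟨hwc, hdR⟩ := hdom e hwe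
      have hkey : |g e.2 - g e.1| ^ p ≤ R ^ p * (|g e.1 - g e.2| ^ p / d e.1 e.2 ^ p) := by
        rw [abs_sub_comm (g e.2) (g e.1)]
        by_cases hde : d e.1 e.2 = 0
        · rw [hg _ _ hde, sub_self, abs_zero, Real.zero_rpow hp0.ne', zero_div, mul_zero]
        · have hdpos : 0 < d e.1 e.2 := lt_of_le_of_ne (hd0 _ _) (Ne.symm hde)
          have hdp : 0 < d e.1 e.2 ^ p := Real.rpow_pos_of_pos hdpos _
          have hle : d e.1 e.2 ^ p ≤ R ^ p := Real.rpow_le_rpow hdpos.le hdR hp0.le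
          rw [← mul_div_assoc, le_div_iff₀ hdp, mul_comm (R ^ p)]
          exact mul_le_mul_of_nonneg_left hle (Real.rpow_nonneg (abs_nonneg _) _)
      calc w e * |g e.2 - g e.1| ^ p
          ≤ (c * phi S L e.1 e.2) * (R ^ p * (|g e.1 - g e.2| ^ p / d e.1 e.2 ^ p)) :=
            mul_le_mul hwc hkey (Real.rpow_nonneg (abs_nonneg _) _)
              (mul_nonneg hc (phi_nonneg S L _ _))
        _ = c * R ^ p * (phi S L e.1 e.2 * (|g e.1 - g e.2| ^ p / d e.1 e.2 ^ p)) := by ring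
  calc |∑ e, w e * (g e.2 - g e.1)| ^ p ≤ (∑ e, w e * |g e.2 - g e.1|) ^ p :=
        Real.rpow_le_rpow (abs_nonneg _) h1 hp0.le
    _ ≤ ∑ e, w e * |g e.2 - g e.1| ^ p := h2
    _ ≤ ∑ e : V × V, c * R ^ p * (phi S L e.1 e.2 * (|g e.1 - g e.2| ^ p / d e.1 e.2 ^ p)) :=
        sum_le_sum h3
    _ = c * R ^ p * TT d S L p g := by
        unfold TT
        rw [mul_sum]

/-- One step of the walk: move from `x` to a uniform point of `S x K`. -/
noncomputable def stepM (S : V → ℕ → Finset V) (K : ℕ) (μ : V → ℝ) (y : V) : ℝ :=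
  ∑ x, μ x * (if y ∈ S x K then 1 / (K : ℝ) else 0)

/-- The weights on pairs of one step of the walk. -/
noncomputable def stepW (S : V → ℕ → Finset V) (K : ℕ) (μ : V → ℝ) (e : V × V) : ℝ :=
  μ e.1 * (if e.2 ∈ S e.1 K then 1 / (K : ℝ) else 0)

/-- The walk started at `i`: at step `k` it uses the `L ^ (k + 1)` nearest neighbours. -/
noncomputable def walk (S : V → ℕ → Finset V) (L : ℕ) (i : V) : ℕ → V → ℝ
  | 0 => fun y => if y = i then 1 else 0
  | k + 1 => stepM S (L ^ (k + 1)) (walk S L i k)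

theorem ind_sum (S : V → ℕ → Finset V) (K : ℕ) (hK : 0 < K) (x : V)
    (hcard : (S x K).card = K) : ∑ y, (if y ∈ S x K then 1 / (K : ℝ) else 0) = 1 := by
  rw [sum_ite_mem, univ_inter, sum_const, hcard, nsmul_eq_mul]
  have : (K : ℝ) ≠ 0 := by exact_mod_cast hK.ne'
  field_simp

omit [Fintype V] in
theorem ind_nonneg (S : V → ℕ → Finset V) (K : ℕ) (x y : V) :
    (0 : ℝ) ≤ (if y ∈ S x K then 1 / (K : ℝ) else 0) := by
  split_ifs
  · positivity
  · exact le_rfl

omit [Fintype V] in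
theorem ind_le (S : V → ℕ → Finset V) (K : ℕ) (x y : V) :
    (if y ∈ S x K then 1 / (K : ℝ) else 0) ≤ 1 / (K : ℝ) := by
  split_ifs
  · exact le_rfl
  · positivity

omit [Fintype V] in
theorem stepW_nonneg (S : V → ℕ → Finset V) (K : ℕ) (μ : V → ℝ) (hμ0 : ∀ x, 0 ≤ μ x)
    (e : V × V) : 0 ≤ stepW S K μ e :=
  mul_nonneg (hμ0 _) (ind_nonneg S K _ _)

theorem stepW_sum (S : V → ℕ → Finset V) (K : ℕ) (hK : 0 < K)
    (hcard : ∀ x, (S x K).card = K) (μ : V → ℝ) (hμ1 : ∑ x, μ x = 1) :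
    ∑ e : V × V, stepW S K μ e = 1 := by
  rw [Fintype.sum_prod_type]
  simp only [stepW]
  calc ∑ x, ∑ y, μ x * (if y ∈ S x K then 1 / (K : ℝ) else 0)
      = ∑ x, μ x := by
        refine sum_congr rfl (fun x _ => ?_)
        rw [← mul_sum, ind_sum S K hK x (hcard x), mul_one]
    _ = 1 := hμ1

theorem stepM_nonneg (S : V → ℕ → Finset V) (K : ℕ) (μ : V → ℝ) (hμ0 : ∀ x, 0 ≤ μ x)
    (y : V) : 0 ≤ stepM S K μ y :=
  sum_nonneg (fun x _ => mul_nonneg (hμ0 x) (ind_nonneg S K x y))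

theorem stepM_sum (S : V → ℕ → Finset V) (K : ℕ) (hK : 0 < K)
    (hcard : ∀ x, (S x K).card = K) (μ : V → ℝ) (hμ1 : ∑ x, μ x = 1) :
    ∑ y, stepM S K μ y = 1 := by
  unfold stepM
  rw [sum_comm]
  calc ∑ x, ∑ y, μ x * (if y ∈ S x K then 1 / (K : ℝ) else 0)
      = ∑ x, μ x := by
        refine sum_congr rfl (fun x _ => ?_)
        rw [← mul_sum, ind_sum S K hK x (hcard x), mul_one]
    _ = 1 := hμ1

theorem stepM_le (S : V → ℕ → Finset V) (K : ℕ) (μ : V → ℝ) (hμ0 : ∀ x, 0 ≤ μ x)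
    (hμ1 : ∑ x, μ x = 1) (y : V) : stepM S K μ y ≤ 1 / (K : ℝ) := by
  unfold stepM
  calc ∑ x, μ x * (if y ∈ S x K then 1 / (K : ℝ) else 0)
      ≤ ∑ x, μ x * (1 / (K : ℝ)) :=
        sum_le_sum (fun x _ => mul_le_mul_of_nonneg_left (ind_le S K x y) (hμ0 x))
    _ = 1 / (K : ℝ) := by rw [← sum_mul, hμ1, one_mul]

theorem stepM_supp (S : V → ℕ → Finset V) (K : ℕ) (μ : V → ℝ) (y : V)
    (hy : stepM S K μ y ≠ 0) : ∃ x, μ x ≠ 0 ∧ y ∈ S x K := by
  by_contra hno
  push Not at hno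
  apply hy
  unfold stepM
  apply sum_eq_zero
  intro x _
  by_cases hx : μ x = 0
  · rw [hx, zero_mul]
  · rw [if_neg (hno x hx), mul_zero]

theorem step_diff (S : V → ℕ → Finset V) (K : ℕ) (hK : 0 < K)
    (hcard : ∀ x, (S x K).card = K) (μ g : V → ℝ) :
    ∑ y, stepM S K μ y * g y - ∑ x, μ x * g x
      = ∑ e : V × V, stepW S K μ e * (g e.2 - g e.1) := by
  rw [Fintype.sum_prod_type]
  simp only [stepW]
  have h1 : ∀ x, ∑ y, μ x * (if y ∈ S x K then 1 / (K : ℝ) else 0) * (g y - g x)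
      = ∑ y, μ x * (if y ∈ S x K then 1 / (K : ℝ) else 0) * g y - μ x * g x := by
    intro x
    have h := ind_sum S K hK x (hcard x)
    simp only [mul_sub, sum_sub_distrib]
    congr 1
    rw [← sum_mul, ← mul_sum, h, mul_one]
  rw [sum_congr rfl (fun x _ => h1 x), sum_sub_distrib]
  congr 1
  rw [sum_comm]
  refine sum_congr rfl (fun y _ => ?_)
  unfold stepM
  rw [sum_mul]

theorem pow_rpow_comm {x : ℝ} (hx : 0 ≤ x) (k : ℕ) (p : ℝ) : (x ^ k) ^ p = (x ^ p) ^ k := by
  rw [← Real.rpow_natCast, ← Real.rpow_mul hx, mul_comm, Real.rpow_mul hx, Real.rpow_natCast]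

theorem step_arith {p : ℝ} (hp : 1 ≤ p) {L : ℝ} (hL : 2 * (10 : ℝ) ^ p ≤ L) (ρ : ℝ)
    (hρ : 0 ≤ ρ) (k : ℕ) :
    (1 / L) ^ k * 2 ^ (k + 1) * (2 * ρ * 5 ^ k) ^ p ≤ (4 * ρ * (1 / 2) ^ k) ^ p := by
  have h10 : 0 < (10 : ℝ) ^ p := Real.rpow_pos_of_pos (by norm_num) _
  have hLpos : 0 < L := by linarith
  have e0 : (5 : ℝ) ^ k * (1 / 10) ^ k = (1 / 2) ^ k := by
    rw [← mul_pow]
    norm_num
  have e1 : 4 * ρ * (1 / 2) ^ k = (2 * ρ * 5 ^ k) * (2 * (1 / 10) ^ k) := by
    rw [← e0]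
    ring
  have e2 : ((1 / 10 : ℝ) ^ k) ^ p = ((1 / 10 : ℝ) ^ p) ^ k := pow_rpow_comm (by norm_num) k p
  have e3 : (1 / 10 : ℝ) ^ p = 1 / (10 : ℝ) ^ p := by
    rw [Real.div_rpow (by norm_num) (by norm_num), Real.one_rpow]
  have h2p : (2 : ℝ) ≤ 2 ^ p := by
    have := Real.rpow_le_rpow_of_exponent_le (by norm_num : (1 : ℝ) ≤ 2) hp
    rwa [Real.rpow_one] at this
  have hq : 2 / L ≤ 1 / (10 : ℝ) ^ p := by
    rw [div_le_div_iff₀ hLpos h10]
    linarith
  have hqk : (2 / L) ^ k ≤ (1 / (10 : ℝ) ^ p) ^ k := pow_le_pow_left₀ (by positivity) hq k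
  have e4 : (1 / L) ^ k * 2 ^ (k + 1) = 2 * (2 / L) ^ k := by
    rw [pow_succ, div_pow, div_pow, one_pow]
    ring
  have hu : 0 ≤ (2 * ρ * 5 ^ k) ^ p := Real.rpow_nonneg (by positivity) _
  have eR : (4 * ρ * (1 / 2) ^ k) ^ p
      = (2 * ρ * 5 ^ k) ^ p * (2 ^ p * (1 / (10 : ℝ) ^ p) ^ k) := by
    rw [e1, Real.mul_rpow (x := 2 * ρ * 5 ^ k) (y := 2 * (1 / 10) ^ k) (by positivity)
      (by positivity), Real.mul_rpow (x := (2 : ℝ)) (y := (1 / 10) ^ k) (by norm_num)
      (by positivity), e2, e3]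
  rw [eR, e4]
  calc 2 * (2 / L) ^ k * (2 * ρ * 5 ^ k) ^ p
      ≤ 2 ^ p * (1 / (10 : ℝ) ^ p) ^ k * (2 * ρ * 5 ^ k) ^ p := by
        apply mul_le_mul_of_nonneg_right _ hu
        exact mul_le_mul h2p hqk (by positivity) (by positivity)
    _ = (2 * ρ * 5 ^ k) ^ p * (2 ^ p * (1 / (10 : ℝ) ^ p) ^ k) := by ring

theorem meet_arith {p : ℝ} (hp : 1 ≤ p) {L : ℝ} (hL : 2 * (10 : ℝ) ^ p ≤ L) (ρ : ℝ)
    (hρ : 0 ≤ ρ) (k : ℕ) :
    (1 / L) ^ k * (1 / L) ^ k * (2 * L) ^ (k + 1) * (ρ * 5 ^ k) ^ p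
      ≤ ((2 * L) ^ (1 / p) * ρ) ^ p := by
  have hp0 : 0 < p := by linarith
  have h10 : 0 < (10 : ℝ) ^ p := Real.rpow_pos_of_pos (by norm_num) _
  have h5 : 0 < (5 : ℝ) ^ p := Real.rpow_pos_of_pos (by norm_num) _
  have h510 : (5 : ℝ) ^ p ≤ (10 : ℝ) ^ p := Real.rpow_le_rpow (by norm_num) (by norm_num) hp0.le
  have hLpos : 0 < L := by linarith
  have e1 : ((2 * L) ^ (1 / p) * ρ) ^ p = 2 * L * ρ ^ p := by
    rw [Real.mul_rpow (Real.rpow_nonneg (by positivity) _) hρ, ← Real.rpow_mul (by positivity),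
      one_div_mul_cancel hp0.ne', Real.rpow_one]
  have e2 : (ρ * 5 ^ k) ^ p = ρ ^ p * ((5 : ℝ) ^ p) ^ k := by
    rw [Real.mul_rpow hρ (by positivity), pow_rpow_comm (by norm_num) k p]
  have e3 : (1 / L) ^ k * (1 / L) ^ k * (2 * L) ^ (k + 1) = 2 * L * (2 / L) ^ k := by
    have h : (2 / L) ^ k = (1 / L) ^ k * (1 / L) ^ k * (2 * L) ^ k := by
      rw [← mul_pow, ← mul_pow]
      congr 1
      field_simp
    rw [h, pow_succ]
    ring
  have hq : 2 / L * (5 : ℝ) ^ p ≤ 1 := by
    rw [div_mul_eq_mul_div, div_le_one hLpos]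
    linarith
  have hqk : (2 / L * (5 : ℝ) ^ p) ^ k ≤ 1 := pow_le_one₀ (by positivity) hq
  have hρp : 0 ≤ ρ ^ p := Real.rpow_nonneg hρ _
  rw [e1, e2, e3]
  calc 2 * L * (2 / L) ^ k * (ρ ^ p * ((5 : ℝ) ^ p) ^ k)
      = 2 * L * ρ ^ p * (2 / L * (5 : ℝ) ^ p) ^ k := by
        rw [mul_pow]
        ring
    _ ≤ 2 * L * ρ ^ p * 1 := mul_le_mul_of_nonneg_left hqk (by positivity)
    _ = 2 * L * ρ ^ p := mul_one _

/-- **Main inequality.** For a pseudometric `d`, nearest-neighbour sets `S`, `p ≥ 1` and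
`L ≥ 2 * 10 ^ p`, every function `g` constant on the classes `d = 0` satisfies
`|g i - g j| ^ p ≤ C ^ p * d i j ^ p * TT d S L p g` with `C = 16 + (2 L) ^ (1 / p)`. -/
theorem knn_main {d : V → V → ℝ} (hsymm : ∀ x y, d x y = d y x)
    (htri : ∀ x y z, d x z ≤ d x y + d y z) (hself : ∀ x, d x x = 0)
    {S : V → ℕ → Finset V} (hS1 : ∀ x K, (S x K).card = min K (Fintype.card V))
    (hS2 : ∀ x K y, y ∉ S x K → ∀ z ∈ S x K, d x z ≤ d x y)
    {p : ℝ} (hp : 1 ≤ p) {L : ℕ} (hL : 2 * (10 : ℝ) ^ p ≤ L)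
    (g : V → ℝ) (hg : ∀ x y, d x y = 0 → g x = g y) (i j : V) :
    |g i - g j| ^ p ≤ (16 + (2 * (L : ℝ)) ^ (1 / p)) ^ p * d i j ^ p * TT d S L p g := by
  classical
  have hp0 : 0 < p := by linarith
  have hd0 : ∀ x y, 0 ≤ d x y := by
    intro x y
    have h := htri x y x
    rw [hself, hsymm y x] at h
    linarith
  have h10 : (10 : ℝ) ≤ (10 : ℝ) ^ p := by
    have := Real.rpow_le_rpow_of_exponent_le (by norm_num : (1 : ℝ) ≤ 10) hp
    rwa [Real.rpow_one] at this
  have hLpos : (0 : ℝ) < L := by linarith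
  have hL2 : 2 ≤ L := by
    have h : ((2 : ℕ) : ℝ) ≤ L := by
      push_cast
      linarith
    exact_mod_cast h
  have hT0 : 0 ≤ TT d S L p g := TT_nonneg d hd0 S L p g
  obtain ⟨τ, hτ0, hτp⟩ : ∃ τ : ℝ, 0 ≤ τ ∧ τ ^ p = TT d S L p g := by
    refine ⟨TT d S L p g ^ (1 / p), Real.rpow_nonneg hT0 _, ?_⟩
    rw [← Real.rpow_mul hT0, one_div_mul_cancel hp0.ne', Real.rpow_one]
  have hC0 : (0 : ℝ) ≤ 16 + (2 * (L : ℝ)) ^ (1 / p) := by
    have := Real.rpow_nonneg (by positivity : (0 : ℝ) ≤ 2 * (L : ℝ)) (1 / p)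
    linarith
  by_cases hρ0 : d i j = 0
  · rw [hg i j hρ0, sub_self, abs_zero, Real.zero_rpow hp0.ne']
    exact mul_nonneg (mul_nonneg (Real.rpow_nonneg hC0 _) (Real.rpow_nonneg (hd0 _ _) _)) hT0
  obtain ⟨ρ, hρdef⟩ : ∃ ρ : ℝ, ρ = d i j := ⟨_, rfl⟩
  have hρ : 0 < ρ := by
    rw [hρdef]
    exact lt_of_le_of_ne (hd0 _ _) (Ne.symm hρ0)
  rw [← hρdef]
  -- the radii
  obtain ⟨σ, hσ⟩ : ∃ σ : ℕ → ℝ, ∀ k, σ k = ρ * ((5 : ℝ) ^ k - 1) / 2 :=
    ⟨fun k => ρ * ((5 : ℝ) ^ k - 1) / 2, fun _ => rfl⟩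
  have hσ0 : σ 0 = 0 := by
    rw [hσ]
    simp
  have hσsucc : ∀ k, σ (k + 1) = σ k + 2 * ρ * 5 ^ k := by
    intro k
    rw [hσ, hσ, pow_succ]
    ring
  have hσnn : ∀ k, 0 ≤ σ k := by
    intro k
    rw [hσ]
    have h1 : (1 : ℝ) ≤ 5 ^ k := one_le_pow₀ (by norm_num)
    have h2 : 0 ≤ ρ * ((5 : ℝ) ^ k - 1) := mul_nonneg hρ.le (by linarith)
    linarith
  -- the stopping level
  have hfull : ∀ k, Fintype.card V ≤ L ^ (k + 1) → ∀ x, S x (L ^ (k + 1)) = univ := by
    intro k hk x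
    rw [← card_eq_iff_eq_univ, hS1]
    omega
  have hex : ∃ k, ∀ x y, d i x ≤ σ k → d j y ≤ σ k → y ∈ S x (L ^ (k + 1)) := by
    refine ⟨Fintype.card V, ?_⟩
    intro x y _ _
    have hk : Fintype.card V ≤ L ^ (Fintype.card V + 1) := by
      calc Fintype.card V ≤ 2 ^ (Fintype.card V) := Nat.lt_two_pow_self.le
        _ ≤ 2 ^ (Fintype.card V + 1) := Nat.pow_le_pow_right (by norm_num) (by omega)
        _ ≤ L ^ (Fintype.card V + 1) := Nat.pow_le_pow_left hL2 _
    rw [hfull _ hk x]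
    exact mem_univ y
  obtain ⟨ks, hksL, hksmin⟩ : ∃ ks, (∀ x y, d i x ≤ σ ks → d j y ≤ σ ks →
      y ∈ S x (L ^ (ks + 1))) ∧ ∀ k, k < ks →
        ¬ ∀ x y, d i x ≤ σ k → d j y ≤ σ k → y ∈ S x (L ^ (k + 1)) :=
    ⟨Nat.find hex, Nat.find_spec hex, fun k hk => Nat.find_min hex hk⟩
  have hksn : ks ≤ Fintype.card V := by
    by_contra hgt
    push Not at hgt
    apply hksmin (Fintype.card V) hgt
    intro x y _ _
    have hk : Fintype.card V ≤ L ^ (Fintype.card V + 1) := by
      calc Fintype.card V ≤ 2 ^ (Fintype.card V) := Nat.lt_two_pow_self.le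
        _ ≤ 2 ^ (Fintype.card V + 1) := Nat.pow_le_pow_right (by norm_num) (by omega)
        _ ≤ L ^ (Fintype.card V + 1) := Nat.pow_le_pow_left hL2 _
    rw [hfull _ hk x]
    exact mem_univ y
  -- below the stopping level the nearest-neighbour sets are full-size and local
  have claim1 : ∀ k, k < ks → (∀ x, (S x (L ^ (k + 1))).card = L ^ (k + 1)) ∧
      ∀ z, (d i z ≤ σ k ∨ d j z ≤ σ k) → ∀ w ∈ S z (L ^ (k + 1)), d z w ≤ 2 * ρ * 5 ^ k := by
    intro k hk
    have hnot := hksmin k hk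
    push Not at hnot
    obtain ⟨x0, y0, hx0, hy0, hy0S⟩ := hnot
    have hlt : L ^ (k + 1) < Fintype.card V := by
      by_contra hge
      push Not at hge
      rw [hfull k hge x0] at hy0S
      exact hy0S (mem_univ _)
    refine ⟨fun x => by rw [hS1]; omega, ?_⟩
    intro z hz w hw
    have hR1 : d x0 y0 ≤ 2 * σ k + ρ := by
      have h1 := htri x0 i y0
      have h2 := htri i j y0
      rw [hsymm x0 i] at h1
      rw [← hρdef] at h2
      linarith
    have hR2 : d z x0 ≤ 2 * σ k + ρ := by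
      rcases hz with hz | hz
      · have h1 := htri z i x0
        rw [hsymm z i] at h1
        linarith [hσnn k]
      · have h1 := htri z j x0
        have h2 := htri j i x0
        rw [hsymm z j] at h1
        rw [hsymm j i, ← hρdef] at h2
        linarith
    have h := nn_ball htri hS1 hS2 hy0S hR1 hR2 w hw
    have e : 2 * (2 * σ k + ρ) = 2 * ρ * 5 ^ k := by
      rw [hσ]
      ring
    linarith
  -- invariants of the two walks
  have inv : ∀ c : V, (c = i ∨ c = j) → ∀ k, k ≤ ks →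
      (∀ y, 0 ≤ walk S L c k y) ∧ (∑ y, walk S L c k y = 1) ∧
      (∀ y, walk S L c k y ≠ 0 → d c y ≤ σ k) ∧
      (∀ y, walk S L c k y ≤ (1 / (L : ℝ)) ^ k) := by
    intro c hc k
    induction k with
    | zero =>
      intro _
      refine ⟨?_, ?_, ?_, ?_⟩
      · intro y
        simp only [walk]
        split_ifs <;> norm_num
      · simp [walk]
      · intro y hy
        simp only [walk] at hy
        have hyc : y = c := by
          by_contra h
          exact hy (if_neg h)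
        rw [hyc, hself, hσ0]
      · intro y
        simp only [walk, pow_zero]
        split_ifs <;> norm_num
    | succ k ih =>
      intro hk
      obtain ⟨h0, h1, h2, h3⟩ := ih (by omega)
      obtain ⟨hcard, hball⟩ := claim1 k (by omega)
      have hKpos : 0 < L ^ (k + 1) := pow_pos (by omega) _
      refine ⟨?_, ?_, ?_, ?_⟩
      · intro y
        exact stepM_nonneg S _ _ h0 y
      · exact stepM_sum S _ hKpos hcard _ h1
      · intro y hy
        obtain ⟨x, hx, hyx⟩ := stepM_supp S _ _ y hy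
        have hcx := h2 x hx
        have hside : d i x ≤ σ k ∨ d j x ≤ σ k := by
          rcases hc with h | h
          · rw [h] at hcx
            exact Or.inl hcx
          · rw [h] at hcx
            exact Or.inr hcx
        have hxy := hball x hside y hyx
        have h4 := htri c x y
        rw [hσsucc]
        linarith
      · intro y
        have h4 := stepM_le S (L ^ (k + 1)) (walk S L c k) h0 h1 y
        have e : (1 / (L : ℝ)) ^ (k + 1) = 1 / ((L ^ (k + 1) : ℕ) : ℝ) := by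
          push_cast
          rw [one_div_pow]
        rw [e]
        exact h4
  -- one step moves the mean of `g` by little
  have stepBound : ∀ c : V, (c = i ∨ c = j) → ∀ k, k < ks →
      |∑ y, walk S L c (k + 1) y * g y - ∑ y, walk S L c k y * g y|
        ≤ 4 * ρ * (1 / 2) ^ k * τ := by
    intro c hc k hk
    obtain ⟨h0, h1, h2, h3⟩ := inv c hc k hk.le
    obtain ⟨hcard, hball⟩ := claim1 k hk
    have hKpos : 0 < L ^ (k + 1) := pow_pos (by omega) _
    have hdiff := step_diff S (L ^ (k + 1)) hKpos hcard (walk S L c k) g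
    have hJ := jensen_dom hd0 S L hp g hg (stepW S (L ^ (k + 1)) (walk S L c k))
      (stepW_nonneg S _ _ h0) (stepW_sum S _ hKpos hcard _ h1)
      ((1 / (L : ℝ)) ^ k * 2 ^ (k + 1)) (2 * ρ * 5 ^ k) (by positivity) (by positivity)
      (by
        intro e he
        unfold stepW at he ⊢
        have hμ : walk S L c k e.1 ≠ 0 := left_ne_zero_of_mul he
        have hmem : e.2 ∈ S e.1 (L ^ (k + 1)) := by
          by_contra hn
          rw [if_neg hn, mul_zero] at he
          exact he rfl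
        constructor
        · rw [if_pos hmem]
          have hphi := phi_ge S L (by omega : k ≤ Fintype.card V) hmem
          have e1 : 1 / ((L ^ (k + 1) : ℕ) : ℝ)
              = 2 ^ (k + 1) * (1 / (2 * (L : ℝ))) ^ (k + 1) := by
            push_cast
            rw [← mul_pow, ← one_div_pow]
            congr 1
            field_simp
          rw [e1]
          calc walk S L c k e.1 * (2 ^ (k + 1) * (1 / (2 * (L : ℝ))) ^ (k + 1))
              ≤ (1 / (L : ℝ)) ^ k * (2 ^ (k + 1) * phi S L e.1 e.2) :=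
                mul_le_mul (h3 _) (mul_le_mul_of_nonneg_left hphi (by positivity))
                  (by positivity) (by positivity)
            _ = (1 / (L : ℝ)) ^ k * 2 ^ (k + 1) * phi S L e.1 e.2 := by ring
        · have hcx := h2 _ hμ
          have hside : d i e.1 ≤ σ k ∨ d j e.1 ≤ σ k := by
            rcases hc with h | h
            · rw [h] at hcx
              exact Or.inl hcx
            · rw [h] at hcx
              exact Or.inr hcx
          exact hball e.1 hside e.2 hmem)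
    rw [← hdiff] at hJ
    have hA := step_arith hp hL ρ hρ.le k
    have hB : |∑ y, stepM S (L ^ (k + 1)) (walk S L c k) y * g y - ∑ x, walk S L c k x * g x| ^ p
        ≤ (4 * ρ * (1 / 2) ^ k * τ) ^ p := by
      rw [Real.mul_rpow (by positivity) hτ0, hτp]
      exact le_trans hJ (mul_le_mul_of_nonneg_right hA hT0)
    exact (Real.rpow_le_rpow_iff (abs_nonneg _) (by positivity) hp0).mp hB
  -- accumulated displacement of the mean
  have accum : ∀ c : V, (c = i ∨ c = j) → ∀ k, k ≤ ks →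
      |∑ y, walk S L c k y * g y - g c| ≤ 8 * ρ * τ * (1 - (1 / 2) ^ k) := by
    intro c hc k
    induction k with
    | zero =>
      intro _
      have h : ∑ y, walk S L c 0 y * g y = g c := by simp [walk]
      rw [h]
      simp
    | succ k ih =>
      intro hk
      have h1 := ih (by omega)
      have h2 := stepBound c hc k (by omega)
      have h3 : |∑ y, walk S L c (k + 1) y * g y - g c|
          ≤ |∑ y, walk S L c (k + 1) y * g y - ∑ y, walk S L c k y * g y|
            + |∑ y, walk S L c k y * g y - g c| := abs_sub_le _ _ _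
      have e : 4 * ρ * (1 / 2) ^ k * τ + 8 * ρ * τ * (1 - (1 / 2) ^ k)
          = 8 * ρ * τ * (1 - (1 / 2) ^ (k + 1)) := by
        rw [pow_succ]
        ring
      linarith
  -- the meeting of the two walks
  have meet : |∑ y, walk S L j ks y * g y - ∑ x, walk S L i ks x * g x|
      ≤ (2 * (L : ℝ)) ^ (1 / p) * ρ * τ := by
    obtain ⟨a0, a1, a2, a3⟩ := inv i (Or.inl rfl) ks le_rfl
    obtain ⟨b0, b1, b2, b3⟩ := inv j (Or.inr rfl) ks le_rfl
    have hid : ∑ e : V × V, (walk S L i ks e.1 * walk S L j ks e.2) * (g e.2 - g e.1)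
        = ∑ y, walk S L j ks y * g y - ∑ x, walk S L i ks x * g x := by
      rw [Fintype.sum_prod_type]
      simp only [mul_sub, sum_sub_distrib]
      congr 1
      · calc ∑ x, ∑ y, walk S L i ks x * walk S L j ks y * g y
            = ∑ x, walk S L i ks x * ∑ y, walk S L j ks y * g y := by
              refine sum_congr rfl (fun x _ => ?_)
              rw [mul_sum]
              refine sum_congr rfl (fun y _ => by ring)
          _ = ∑ y, walk S L j ks y * g y := by rw [← sum_mul, a1, one_mul]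
      · calc ∑ x, ∑ y, walk S L i ks x * walk S L j ks y * g x
            = ∑ x, walk S L i ks x * g x * ∑ y, walk S L j ks y := by
              refine sum_congr rfl (fun x _ => ?_)
              rw [mul_sum]
              refine sum_congr rfl (fun y _ => by ring)
          _ = ∑ x, walk S L i ks x * g x := by
              rw [b1]
              simp
    have hw1 : ∑ e : V × V, walk S L i ks e.1 * walk S L j ks e.2 = 1 := by
      rw [Fintype.sum_prod_type]
      calc ∑ x, ∑ y, walk S L i ks x * walk S L j ks y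
          = ∑ x, walk S L i ks x * ∑ y, walk S L j ks y := by
            refine sum_congr rfl (fun x _ => ?_)
            rw [mul_sum]
        _ = 1 := by
            rw [b1]
            simp [a1]
    have hJ := jensen_dom hd0 S L hp g hg (fun e => walk S L i ks e.1 * walk S L j ks e.2)
      (fun e => mul_nonneg (a0 _) (b0 _)) hw1
      ((1 / (L : ℝ)) ^ ks * (1 / (L : ℝ)) ^ ks * (2 * (L : ℝ)) ^ (ks + 1)) (ρ * 5 ^ ks)
      (by positivity) (by positivity)
      (by
        intro e he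
        have hμ : walk S L i ks e.1 ≠ 0 := left_ne_zero_of_mul he
        have hν : walk S L j ks e.2 ≠ 0 := right_ne_zero_of_mul he
        have hx := a2 _ hμ
        have hy := b2 _ hν
        have hmem := hksL e.1 e.2 hx hy
        have hphi := phi_ge S L hksn hmem
        constructor
        · have e1 : (2 * (L : ℝ)) ^ (ks + 1) * (1 / (2 * (L : ℝ))) ^ (ks + 1) = 1 := by
            rw [← mul_pow]
            have h : 2 * (L : ℝ) * (1 / (2 * (L : ℝ))) = 1 := by
              field_simp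
            rw [h, one_pow]
          calc walk S L i ks e.1 * walk S L j ks e.2
              ≤ (1 / (L : ℝ)) ^ ks * (1 / (L : ℝ)) ^ ks :=
                mul_le_mul (a3 _) (b3 _) (b0 _) (by positivity)
            _ = (1 / (L : ℝ)) ^ ks * (1 / (L : ℝ)) ^ ks *
                  ((2 * (L : ℝ)) ^ (ks + 1) * (1 / (2 * (L : ℝ))) ^ (ks + 1)) := by
                rw [e1, mul_one]
            _ ≤ (1 / (L : ℝ)) ^ ks * (1 / (L : ℝ)) ^ ks *
                  ((2 * (L : ℝ)) ^ (ks + 1) * phi S L e.1 e.2) :=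
                mul_le_mul_of_nonneg_left (mul_le_mul_of_nonneg_left hphi (by positivity))
                  (by positivity)
            _ = (1 / (L : ℝ)) ^ ks * (1 / (L : ℝ)) ^ ks * (2 * (L : ℝ)) ^ (ks + 1) *
                  phi S L e.1 e.2 := by ring
        · have h1 := htri e.1 i e.2
          have h2 := htri i j e.2
          rw [hsymm e.1 i] at h1
          rw [← hρdef] at h2
          have e2 : 2 * σ ks + ρ = ρ * 5 ^ ks := by
            rw [hσ]
            ring
          linarith)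
    rw [hid] at hJ
    have hA := meet_arith hp hL ρ hρ.le ks
    have hB : |∑ y, walk S L j ks y * g y - ∑ x, walk S L i ks x * g x| ^ p
        ≤ ((2 * (L : ℝ)) ^ (1 / p) * ρ * τ) ^ p := by
      rw [Real.mul_rpow (mul_nonneg (Real.rpow_nonneg (by positivity) _) hρ.le) hτ0, hτp]
      exact le_trans hJ (mul_le_mul_of_nonneg_right hA hT0)
    exact (Real.rpow_le_rpow_iff (abs_nonneg _)
      (mul_nonneg (mul_nonneg (Real.rpow_nonneg (by positivity) _) hρ.le) hτ0) hp0).mp hB
  -- conclusion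
  have hAi := accum i (Or.inl rfl) ks le_rfl
  have hAj := accum j (Or.inr rfl) ks le_rfl
  have hfin : |g i - g j| ≤ (16 + (2 * (L : ℝ)) ^ (1 / p)) * ρ * τ := by
    have hpow : (0 : ℝ) ≤ (1 / 2) ^ ks := by positivity
    have h8 : 8 * ρ * τ * (1 - (1 / 2) ^ ks) ≤ 8 * ρ * τ := by
      have h : 0 ≤ 8 * ρ * τ := by positivity
      nlinarith
    have tri : |g i - g j| ≤ |∑ y, walk S L i ks y * g y - g i|
        + |∑ y, walk S L j ks y * g y - ∑ x, walk S L i ks x * g x|
        + |∑ y, walk S L j ks y * g y - g j| := by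
      have e : g i - g j = -(∑ y, walk S L i ks y * g y - g i)
          - (∑ y, walk S L j ks y * g y - ∑ x, walk S L i ks x * g x)
          + (∑ y, walk S L j ks y * g y - g j) := by ring
      rw [e]
      refine le_trans (abs_add_le _ _) ?_
      refine add_le_add (le_trans (abs_sub _ _) ?_) le_rfl
      rw [abs_neg]
    linarith
  calc |g i - g j| ^ p ≤ ((16 + (2 * (L : ℝ)) ^ (1 / p)) * ρ * τ) ^ p :=
        Real.rpow_le_rpow (abs_nonneg _) hfin hp0.le
    _ = (16 + (2 * (L : ℝ)) ^ (1 / p)) ^ p * ρ ^ p * τ ^ p := by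
        rw [Real.mul_rpow (mul_nonneg hC0 hρ.le) hτ0, Real.mul_rpow hC0 hρ.le]
    _ = (16 + (2 * (L : ℝ)) ^ (1 / p)) ^ p * ρ ^ p * TT d S L p g := by rw [hτp]

end Core

end Vale.Agent.Lib.P249.H95.Knn
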