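import Mathlib

/-!
# P249: the pair-sensitivity bound (independent backup of piece (A) of helper21's proof)

For points `x a` (`a : ι`, `ι` finite) of `ℝ^K` and `p ≥ 1` there are coordinate weights
`s k ≥ 0` with `|x a k - x b k|^p ≤ s k * ∑ k', |x a k' - x b k'|^p` for all pairs and all
coordinates, and `∑ k, s k ≤ (4 ⌊log₂ n⌋ + 4)^p * n * H_n`, `n = card ι`.
-/

namespace Vale.Agent.Lib.P249.H95

open Finset

/-- Rank/harmonic bound: for `f : ι → ℝ` and a finset `s`, the sum over `b ∈ s` of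
`1 / #{y ∈ s | f y ≤ f b}` is at most the harmonic number `H_{|s|}`. -/
theorem sum_inv_rank_le {ι : Type*} [DecidableEq ι] (f : ι → ℝ) :
    ∀ (N : ℕ) (s : Finset ι), s.card = N →
      ∑ b ∈ s, (1 : ℝ) / ((s.filter (fun y => f y ≤ f b)).card : ℝ) ≤ (harmonic N : ℝ) := by
  intro N
  induction N with
  | zero =>
    intro s hs
    rw [Finset.card_eq_zero] at hs
    subst hs
    simp
  | succ N ih =>
    intro s hs
    have hne : s.Nonempty := by
      rw [← Finset.card_pos]; omega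
    obtain ⟨b0, hb0, hmax⟩ := s.exists_max_image f hne
    have hcard : (s.erase b0).card = N := by
      rw [Finset.card_erase_of_mem hb0]; omega
    have ih' := ih (s.erase b0) hcard
    rw [← Finset.add_sum_erase s _ hb0]
    have h1 : (s.filter (fun y => f y ≤ f b0)) = s := by
      apply Finset.filter_true_of_mem
      intro y hy; exact hmax y hy
    rw [h1, hs, harmonic_succ]
    have h2 : ∑ b ∈ s.erase b0, (1 : ℝ) / ((s.filter (fun y => f y ≤ f b)).card : ℝ)
        ≤ ∑ b ∈ s.erase b0,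
            (1 : ℝ) / (((s.erase b0).filter (fun y => f y ≤ f b)).card : ℝ) := by
      apply Finset.sum_le_sum
      intro b hb
      have hpos : 0 < ((s.erase b0).filter (fun y => f y ≤ f b)).card := by
        rw [Finset.card_pos]
        exact ⟨b, Finset.mem_filter.mpr ⟨hb, le_refl _⟩⟩
      have hle : ((s.erase b0).filter (fun y => f y ≤ f b)).card
          ≤ (s.filter (fun y => f y ≤ f b)).card := by
        apply Finset.card_le_card
        apply Finset.filter_subset_filter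
        exact Finset.erase_subset _ _
      apply one_div_le_one_div_of_le
      · exact_mod_cast hpos
      · exact_mod_cast hle
    push_cast
    rw [one_div]
    linarith


section Abstract

variable {ι : Type*} [Fintype ι] [DecidableEq ι]

/-- Number of points `y` with `d a y ≤ ρ`. -/
noncomputable def ballCard (d : ι → ι → ℝ) (a : ι) (ρ : ℝ) : ℕ :=
  (univ.filter (fun y => d a y ≤ ρ)).card

/-- The potential term of the ordered pair a, b. -/
noncomputable def pot (d w : ι → ι → ℝ) (p : ℝ) (a b : ι) : ℝ :=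
  (1 / (ballCard d a (d a b) : ℝ)) * (w a b / d a b ^ p)

omit [Fintype ι] [DecidableEq ι] in
theorem dist_nonneg' (d : ι → ι → ℝ) (hd0 : ∀ a, d a a = 0) (hdsymm : ∀ a b, d a b = d b a)
    (hdtri : ∀ a b c, d a c ≤ d a b + d b c) (a b : ι) : 0 ≤ d a b := by
  have h := hdtri a b a
  rw [hd0 a, hdsymm b a] at h
  linarith

omit [DecidableEq ι] in
theorem pot_nonneg (d w : ι → ι → ℝ) (p : ℝ) (hdnn : ∀ a b, 0 ≤ d a b)
    (hw0 : ∀ a b, 0 ≤ w a b) (a b : ι) : 0 ≤ pot d w p a b := by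
  have h1 : (0 : ℝ) ≤ 1 / (ballCard d a (d a b) : ℝ) := by positivity
  have h2 : 0 ≤ w a b / d a b ^ p :=
    div_nonneg (hw0 a b) (Real.rpow_nonneg (hdnn a b) p)
  exact mul_nonneg h1 h2

omit [DecidableEq ι] in
theorem ballCard_pos (d : ι → ι → ℝ) (hd0 : ∀ a, d a a = 0) (a : ι) (ρ : ℝ) (hρ : 0 ≤ ρ) :
    0 < ballCard d a ρ := by
  apply Finset.card_pos.mpr
  refine ⟨a, Finset.mem_filter.mpr ⟨Finset.mem_univ _, ?_⟩⟩
  rw [hd0 a]; exact hρ

omit [DecidableEq ι] in
theorem ballCard_mono (d : ι → ι → ℝ) (a : ι) {ρ ρ' : ℝ} (h : ρ ≤ ρ') :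
    ballCard d a ρ ≤ ballCard d a ρ' := by
  apply Finset.card_le_card
  intro y hy
  have hy' := (Finset.mem_filter.mp hy).2
  exact Finset.mem_filter.mpr ⟨Finset.mem_univ _, hy'.trans h⟩

/-- Doubling scale: a function `g : ℕ → ℕ` with values in `[1, n]` has `g (μ+1) ≤ 2 g μ` for
some `μ ≤ ⌊log₂ n⌋`. -/
theorem exists_doubling (g : ℕ → ℕ) (n : ℕ) (hg1 : ∀ μ, 1 ≤ g μ) (hgn : ∀ μ, g μ ≤ n) :
    ∃ μ, μ ≤ Nat.log 2 n ∧ g (μ + 1) ≤ 2 * g μ := by
  by_contra hcon
  push Not at hcon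
  have hpow : ∀ μ, μ ≤ Nat.log 2 n + 1 → 2 ^ μ ≤ g μ := by
    intro μ
    induction μ with
    | zero => intro _; simpa using hg1 0
    | succ μ ih =>
      intro hμ
      have h1 := ih (by omega)
      have h2 := hcon μ (by omega)
      rw [pow_succ]
      omega
  have h1 := hpow (Nat.log 2 n + 1) le_rfl
  have h2 := hgn (Nat.log 2 n + 1)
  have h3 : n < 2 ^ (Nat.log 2 n + 1) := Nat.lt_pow_succ_log_self (by norm_num) _
  omega

omit [DecidableEq ι] in
/-- The term of the pair i, j itself. -/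
theorem pot_pair_ge (d w : ι → ι → ℝ) (p : ℝ) (hd0 : ∀ a, d a a = 0)
    (hw0 : ∀ a b, 0 ≤ w a b) (i j : ι) (hρ : 0 < d i j) (C : ℝ) (hC1 : 1 ≤ C) :
    w i j / d i j ^ p / (ballCard d i (C * d i j) : ℝ) ≤ pot d w p i j := by
  have hR0 : 0 ≤ w i j / d i j ^ p := div_nonneg (hw0 i j) (Real.rpow_nonneg hρ.le p)
  have hcard : ballCard d i (d i j) ≤ ballCard d i (C * d i j) :=
    ballCard_mono d i (by nlinarith)
  have hpos : 0 < ballCard d i (d i j) := ballCard_pos d hd0 i _ hρ.le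
  have hpos' : (0 : ℝ) < (ballCard d i (d i j) : ℝ) := by exact_mod_cast hpos
  have hcard' : (ballCard d i (d i j) : ℝ) ≤ (ballCard d i (C * d i j) : ℝ) := by
    exact_mod_cast hcard
  have h1 : 1 / (ballCard d i (C * d i j) : ℝ) ≤ 1 / (ballCard d i (d i j) : ℝ) :=
    one_div_le_one_div_of_le hpos' hcard'
  unfold pot
  rw [div_eq_mul_one_div, mul_comm]
  exact mul_le_mul_of_nonneg_right h1 hR0

omit [DecidableEq ι] in
/-- The terms of the pairs i, l and j, l for a third point `l` of the ball `B1`. -/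
theorem pot_third_ge (d w : ι → ι → ℝ) (p : ℝ) (hp : 1 ≤ p)
    (hd0 : ∀ a, d a a = 0) (hdsymm : ∀ a b, d a b = d b a)
    (hdtri : ∀ a b c, d a c ≤ d a b + d b c)
    (hw0 : ∀ a b, 0 ≤ w a b)
    (hwtri : ∀ i j l, w i j ≤ 2 ^ (p - 1) * (w i l + w j l))
    (hwd : ∀ a b, d a b = 0 → w a b = 0) (i j : ι) (hρ : 0 < d i j) (C : ℝ) (hC1 : 1 ≤ C)
    (l : ι) (hdil : d i l ≤ C * d i j) :
    (1 / (ballCard d i ((C + 2) * d i j) : ℝ)) *
        ((2 : ℝ) ^ (1 - p) * (w i j / d i j ^ p) / (C + 1) ^ p)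
      ≤ pot d w p i l + pot d w p j l := by
  have hp0 : 0 < p := by linarith
  have hdnn : ∀ a b, 0 ≤ d a b := dist_nonneg' d hd0 hdsymm hdtri
  have hρp : 0 < d i j ^ p := Real.rpow_pos_of_pos hρ p
  have hA0 : 0 < (C + 1) ^ p := Real.rpow_pos_of_pos (by linarith) p
  have ht0 : 0 < (2 : ℝ) ^ (1 - p) := Real.rpow_pos_of_pos (by norm_num) _
  have ht2 : (2 : ℝ) ^ (1 - p) * (2 : ℝ) ^ (p - 1) = 1 := by
    rw [← Real.rpow_add (by norm_num : (0 : ℝ) < 2)]
    have : 1 - p + (p - 1) = 0 := by ring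
    rw [this, Real.rpow_zero]
  have hdjl : d j l ≤ (C + 1) * d i j := by
    have h := hdtri j i l
    rw [hdsymm j i] at h
    linarith
  have hCρ : 0 < (C + 1) * d i j := by positivity
  have hCρp : 0 < ((C + 1) * d i j) ^ p := Real.rpow_pos_of_pos hCρ p
  -- the two potentials
  have hφi : 1 / (ballCard d i ((C + 2) * d i j) : ℝ) ≤ 1 / (ballCard d i (d i l) : ℝ) := by
    have hcard : ballCard d i (d i l) ≤ ballCard d i ((C + 2) * d i j) :=
      ballCard_mono d i (by nlinarith)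
    have hpos : 0 < ballCard d i (d i l) := ballCard_pos d hd0 i _ (hdnn i l)
    apply one_div_le_one_div_of_le
    · exact_mod_cast hpos
    · exact_mod_cast hcard
  have hφj : 1 / (ballCard d i ((C + 2) * d i j) : ℝ) ≤ 1 / (ballCard d j (d j l) : ℝ) := by
    have hsub : (univ.filter (fun y => d j y ≤ d j l)) ⊆
        (univ.filter (fun y => d i y ≤ (C + 2) * d i j)) := by
      intro y hy
      have hy' := (Finset.mem_filter.mp hy).2
      refine Finset.mem_filter.mpr ⟨Finset.mem_univ _, ?_⟩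
      have h := hdtri i j y
      nlinarith
    have hcard : ballCard d j (d j l) ≤ ballCard d i ((C + 2) * d i j) :=
      Finset.card_le_card hsub
    have hpos : 0 < ballCard d j (d j l) := ballCard_pos d hd0 j _ (hdnn j l)
    apply one_div_le_one_div_of_le
    · exact_mod_cast hpos
    · exact_mod_cast hcard
  -- the two ratios
  have hratio : ∀ a : ι, d a l ≤ (C + 1) * d i j →
      w a l / ((C + 1) * d i j) ^ p ≤ w a l / d a l ^ p := by
    intro a hal
    by_cases h0 : d a l = 0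
    · rw [hwd a l h0]; simp
    · have hpos : 0 < d a l := lt_of_le_of_ne (hdnn a l) (Ne.symm h0)
      have hpp : 0 < d a l ^ p := Real.rpow_pos_of_pos hpos p
      exact div_le_div_of_nonneg_left (hw0 a l) hpp
        (Real.rpow_le_rpow hpos.le hal hp0.le)
  have hri := hratio i (by nlinarith)
  have hrj := hratio j hdjl
  have hsum : (2 : ℝ) ^ (1 - p) * (w i j / d i j ^ p) / (C + 1) ^ p
      ≤ w i l / ((C + 1) * d i j) ^ p + w j l / ((C + 1) * d i j) ^ p := by
    rw [← add_div, Real.mul_rpow (by linarith) hρ.le]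
    rw [div_le_div_iff₀ hA0 (mul_pos hA0 hρp)]
    have h1 : (2 : ℝ) ^ (1 - p) * w i j ≤ w i l + w j l := by
      have h := hwtri i j l
      have h2 : (2 : ℝ) ^ (1 - p) * w i j
          ≤ (2 : ℝ) ^ (1 - p) * (2 ^ (p - 1) * (w i l + w j l)) :=
        mul_le_mul_of_nonneg_left h ht0.le
      rw [← mul_assoc, ht2, one_mul] at h2
      exact h2
    have h3 : (2 : ℝ) ^ (1 - p) * (w i j / d i j ^ p) * ((C + 1) ^ p * d i j ^ p)
        = (2 : ℝ) ^ (1 - p) * w i j * (C + 1) ^ p := by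
      field_simp
    rw [h3]
    exact mul_le_mul_of_nonneg_right h1 hA0.le
  have hnn1 : 0 ≤ w i l / d i l ^ p := div_nonneg (hw0 i l) (Real.rpow_nonneg (hdnn i l) p)
  have hnn2 : 0 ≤ w j l / d j l ^ p := div_nonneg (hw0 j l) (Real.rpow_nonneg (hdnn j l) p)
  have hb3 : (0 : ℝ) ≤ 1 / (ballCard d i ((C + 2) * d i j) : ℝ) := by positivity
  unfold pot
  calc (1 / (ballCard d i ((C + 2) * d i j) : ℝ)) *
        ((2 : ℝ) ^ (1 - p) * (w i j / d i j ^ p) / (C + 1) ^ p)
      ≤ (1 / (ballCard d i ((C + 2) * d i j) : ℝ)) *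
          (w i l / d i l ^ p + w j l / d j l ^ p) := by
        apply mul_le_mul_of_nonneg_left _ hb3
        linarith
    _ = (1 / (ballCard d i ((C + 2) * d i j) : ℝ)) * (w i l / d i l ^ p)
          + (1 / (ballCard d i ((C + 2) * d i j) : ℝ)) * (w j l / d j l ^ p) := by ring
    _ ≤ _ := by
        apply add_le_add
        · exact mul_le_mul_of_nonneg_right hφi hnn1
        · exact mul_le_mul_of_nonneg_right hφj hnn2

/-- A nonnegative double sum dominates the term of the pair i, j plus the terms of i, l and j, l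
for `l` in a set avoiding `j` (`i ≠ j`). -/
theorem sum_lower (F : ι → ι → ℝ) (hF0 : ∀ a b, 0 ≤ F a b) (i j : ι) (hij : i ≠ j)
    (B' : Finset ι) (hB' : j ∉ B') :
    F i j + ∑ l ∈ B', (F i l + F j l) ≤ ∑ a, ∑ b, F a b := by
  have hrow : ∀ a, 0 ≤ ∑ b, F a b := fun a => Finset.sum_nonneg fun b _ => hF0 a b
  have h1 : ∑ b, F i b + ∑ b, F j b ≤ ∑ a, ∑ b, F a b := by
    have hsplit : ∑ a, ∑ b, F a b
        = ∑ b, F i b + ∑ a ∈ (univ : Finset ι).erase i, ∑ b, F a b :=
      (Finset.add_sum_erase univ (fun a => ∑ b, F a b) (Finset.mem_univ i)).symm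
    have hj' : j ∈ (univ : Finset ι).erase i :=
      Finset.mem_erase.mpr ⟨Ne.symm hij, Finset.mem_univ _⟩
    have := Finset.single_le_sum (f := fun a => ∑ b, F a b) (fun a _ => hrow a) hj'
    rw [hsplit]
    linarith
  have h2 : F i j + ∑ l ∈ B', F i l ≤ ∑ b, F i b := by
    have hsplit : ∑ b, F i b = F i j + ∑ b ∈ (univ : Finset ι).erase j, F i b :=
      (Finset.add_sum_erase univ (fun b => F i b) (Finset.mem_univ j)).symm
    have hsub : B' ⊆ (univ : Finset ι).erase j := by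
      intro l hl
      refine Finset.mem_erase.mpr ⟨?_, Finset.mem_univ _⟩
      rintro rfl
      exact hB' hl
    have := Finset.sum_le_sum_of_subset_of_nonneg (f := fun b => F i b) hsub
      (fun b _ _ => hF0 i b)
    rw [hsplit]
    linarith
  have h3 : ∑ l ∈ B', F j l ≤ ∑ b, F j b :=
    Finset.sum_le_sum_of_subset_of_nonneg (Finset.subset_univ _) (fun b _ _ => hF0 j b)
  rw [Finset.sum_add_distrib]
  linarith

/-- The arithmetic at the end of the argument. -/
theorem final_arith (p : ℝ) (hp : 1 ≤ p) (C R T b1 b3 b' : ℝ) (hC1 : 1 ≤ C) (hR0 : 0 ≤ R)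
    (hb1 : 0 < b1) (hb3 : 0 < b3) (hb' : b' = b1 - 2) (hb'0 : 0 ≤ b')
    (hb31 : b3 ≤ 2 * b1)
    (hT : R / b1 + b' * ((1 / b3) * ((2 : ℝ) ^ (1 - p) * R / (C + 1) ^ p)) ≤ T) :
    R ≤ (2 * (C + 1)) ^ p * T := by
  have hp0 : 0 < p := by linarith
  have hA0 : 0 < (C + 1) ^ p := Real.rpow_pos_of_pos (by linarith) p
  have hA1 : 1 ≤ (C + 1) ^ p := Real.one_le_rpow (by linarith) hp0.le
  have ht0 : 0 < (2 : ℝ) ^ (1 - p) := Real.rpow_pos_of_pos (by norm_num) _
  have ht1 : (2 : ℝ) ^ (1 - p) ≤ 1 :=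
    Real.rpow_le_one_of_one_le_of_nonpos (by norm_num) (by linarith)
  have ht3 : (2 : ℝ) ^ (1 - p) * (2 : ℝ) ^ p = 2 := by
    rw [← Real.rpow_add (by norm_num : (0 : ℝ) < 2)]
    have : 1 - p + p = 1 := by ring
    rw [this, Real.rpow_one]
  generalize hA : (C + 1) ^ p = A at *
  generalize ht : (2 : ℝ) ^ (1 - p) = t at *
  have hq0 : 0 ≤ t * R / A := div_nonneg (mul_nonneg ht0.le hR0) hA0.le
  have hq1 : t * R / A ≤ R := by
    rw [div_le_iff₀ hA0]
    nlinarith
  have hkey : t * R / A / 2 ≤ T := by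
    have e1 : b' * ((1 / b3) * (t * R / A)) = (b' * (t * R / A)) / b3 := by ring
    have e2 : (b' * (t * R / A)) / (2 * b1) ≤ (b' * (t * R / A)) / b3 :=
      div_le_div_of_nonneg_left (mul_nonneg hb'0 hq0) hb3 hb31
    have e3 : (t * R / A) / b1 ≤ R / b1 := div_le_div_of_nonneg_right hq1 hb1.le
    have e4 : (t * R / A) / b1 + (b' * (t * R / A)) / (2 * b1) = t * R / A / 2 := by
      rw [hb']
      field_simp
      ring
    linarith
  have h2p : (0 : ℝ) < (2 : ℝ) ^ p := Real.rpow_pos_of_pos (by norm_num) _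
  have e : R = (t * R / A / 2) * ((2 : ℝ) ^ p * A) := by
    have : t * R / A / 2 * ((2 : ℝ) ^ p * A) = (t * (2 : ℝ) ^ p) * R / 2 := by
      field_simp
    rw [this, ht3]
    ring
  rw [Real.mul_rpow (by norm_num) (by linarith), hA]
  calc R = (t * R / A / 2) * ((2 : ℝ) ^ p * A) := e
    _ ≤ T * ((2 : ℝ) ^ p * A) := by
        apply mul_le_mul_of_nonneg_right hkey
        positivity
    _ = (2 : ℝ) ^ p * A * T := by ring

/-- The pair-sensitivity bound for one coordinate, in abstract form: `d` is a pseudo-metric on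
a finite type, `w` a nonnegative pair weight with the quasi-triangle inequality
`w i j ≤ 2^(p-1) (w i l + w j l)` that vanishes where `d` does. Then every ratio
`w i j / d i j ^ p` is at most the `p`-th power of `4 ⌊log₂ n⌋ + 4` times the potential
`∑_{a,b} (1 / #{y | d a y ≤ d a b}) * (w a b / d a b ^ p)`. -/
theorem abstract_A1 (d w : ι → ι → ℝ) (p : ℝ) (hp : 1 ≤ p)
    (hd0 : ∀ a, d a a = 0) (hdsymm : ∀ a b, d a b = d b a)
    (hdtri : ∀ a b c, d a c ≤ d a b + d b c)
    (hw0 : ∀ a b, 0 ≤ w a b)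
    (hwtri : ∀ i j l, w i j ≤ 2 ^ (p - 1) * (w i l + w j l))
    (hwd : ∀ a b, d a b = 0 → w a b = 0) (i j : ι) :
    w i j / d i j ^ p ≤ (4 * (Nat.log 2 (Fintype.card ι) : ℝ) + 4) ^ p *
      ∑ a, ∑ b, pot d w p a b := by
  have hp0 : 0 < p := by linarith
  have hdnn : ∀ a b, 0 ≤ d a b := dist_nonneg' d hd0 hdsymm hdtri
  have hF0 : ∀ a b, 0 ≤ pot d w p a b := pot_nonneg d w p hdnn hw0
  have hT0 : 0 ≤ ∑ a, ∑ b, pot d w p a b :=
    Finset.sum_nonneg fun a _ => Finset.sum_nonneg fun b _ => hF0 a b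
  have hc0 : (0 : ℝ) ≤ (4 * (Nat.log 2 (Fintype.card ι) : ℝ) + 4) ^ p := by positivity
  by_cases hρ0 : d i j = 0
  · rw [hwd i j hρ0, zero_div]
    exact mul_nonneg hc0 hT0
  have hρ : 0 < d i j := lt_of_le_of_ne (hdnn i j) (Ne.symm hρ0)
  have hij : i ≠ j := by
    rintro rfl
    exact hρ0 (hd0 i)
  -- the doubling scale
  obtain ⟨μ, hμM, hμ⟩ := exists_doubling
    (fun μ => ballCard d i ((2 * (μ : ℝ) + 1) * d i j)) (Fintype.card ι)
    (fun μ => ballCard_pos d hd0 i _ (by positivity))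
    (fun μ => Finset.card_le_univ _)
  have hC1 : (1 : ℝ) ≤ 2 * (μ : ℝ) + 1 := by
    have : (0 : ℝ) ≤ (μ : ℝ) := Nat.cast_nonneg μ
    linarith
  generalize hC : 2 * (μ : ℝ) + 1 = C at hC1
  have hB31 : ballCard d i ((C + 2) * d i j) ≤ 2 * ballCard d i (C * d i j) := by
    have e : (2 * ((μ + 1 : ℕ) : ℝ) + 1) = C + 2 := by
      rw [← hC]; push_cast; ring
    have h := hμ
    simp only [e, hC] at h
    exact h
  have hiB1 : i ∈ univ.filter (fun y => d i y ≤ C * d i j) := by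
    refine Finset.mem_filter.mpr ⟨Finset.mem_univ _, ?_⟩
    rw [hd0 i]; positivity
  have hjB1 : j ∈ univ.filter (fun y => d i y ≤ C * d i j) := by
    refine Finset.mem_filter.mpr ⟨Finset.mem_univ _, ?_⟩
    nlinarith
  have hB'card : (((univ.filter (fun y => d i y ≤ C * d i j)).erase i).erase j).card + 2
      = ballCard d i (C * d i j) := by
    have hj' : j ∈ (univ.filter (fun y => d i y ≤ C * d i j)).erase i :=
      Finset.mem_erase.mpr ⟨Ne.symm hij, hjB1⟩
    rw [Finset.card_erase_of_mem hj', Finset.card_erase_of_mem hiB1]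
    have h2 : 2 ≤ (univ.filter (fun y => d i y ≤ C * d i j)).card := by
      have : ({i, j} : Finset ι) ⊆ univ.filter (fun y => d i y ≤ C * d i j) := by
        intro y hy
        rcases Finset.mem_insert.mp hy with h | h
        · rw [h]; exact hiB1
        · rw [Finset.mem_singleton.mp h]; exact hjB1
      have h3 := Finset.card_le_card this
      rw [Finset.card_pair hij] at h3
      exact h3
    unfold ballCard
    omega
  have hFl : ∀ l ∈ ((univ.filter (fun y => d i y ≤ C * d i j)).erase i).erase j,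
      (1 / (ballCard d i ((C + 2) * d i j) : ℝ)) *
        ((2 : ℝ) ^ (1 - p) * (w i j / d i j ^ p) / (C + 1) ^ p)
      ≤ pot d w p i l + pot d w p j l := by
    intro l hl
    have h1 := Finset.mem_erase.mp hl
    have h2 := Finset.mem_erase.mp h1.2
    exact pot_third_ge d w p hp hd0 hdsymm hdtri hw0 hwtri hwd i j hρ C hC1 l
      (Finset.mem_filter.mp h2.2).2
  have hsumB' := Finset.card_nsmul_le_sum _ (fun l => pot d w p i l + pot d w p j l) _ hFl
  rw [nsmul_eq_mul] at hsumB'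
  have hTlow := sum_lower (pot d w p) hF0 i j hij
    (((univ.filter (fun y => d i y ≤ C * d i j)).erase i).erase j)
    (Finset.notMem_erase j _)
  have hFij := pot_pair_ge d w p hd0 hw0 i j hρ C hC1
  have hb' : ((((univ.filter (fun y => d i y ≤ C * d i j)).erase i).erase j).card : ℝ)
      = (ballCard d i (C * d i j) : ℝ) - 2 := by
    have : (((((univ.filter (fun y => d i y ≤ C * d i j)).erase i).erase j).card + 2 : ℕ) : ℝ)
        = (ballCard d i (C * d i j) : ℝ) := by exact_mod_cast hB'card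
    push_cast at this
    linarith
  have hb1pos : (0 : ℝ) < (ballCard d i (C * d i j) : ℝ) := by
    have := ballCard_pos d hd0 i (C * d i j) (by positivity)
    exact_mod_cast this
  have hb3pos : (0 : ℝ) < (ballCard d i ((C + 2) * d i j) : ℝ) := by
    have := ballCard_pos d hd0 i ((C + 2) * d i j) (by positivity)
    exact_mod_cast this
  have hb31 : (ballCard d i ((C + 2) * d i j) : ℝ) ≤ 2 * (ballCard d i (C * d i j) : ℝ) := by
    exact_mod_cast hB31
  have hR0 : 0 ≤ w i j / d i j ^ p := div_nonneg (hw0 i j) (Real.rpow_nonneg hρ.le p)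
  have hfin := final_arith p hp C (w i j / d i j ^ p) (∑ a, ∑ b, pot d w p a b)
    (ballCard d i (C * d i j) : ℝ) (ballCard d i ((C + 2) * d i j) : ℝ)
    ((((univ.filter (fun y => d i y ≤ C * d i j)).erase i).erase j).card : ℝ)
    hC1 hR0 hb1pos hb3pos hb' (Nat.cast_nonneg _) hb31 (by linarith)
  have hconst : (2 * (C + 1)) ^ p ≤ (4 * (Nat.log 2 (Fintype.card ι) : ℝ) + 4) ^ p := by
    apply Real.rpow_le_rpow (by linarith) _ hp0.le
    have : (μ : ℝ) ≤ (Nat.log 2 (Fintype.card ι) : ℝ) := by exact_mod_cast hμM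
    rw [← hC]
    linarith
  exact hfin.trans (mul_le_mul_of_nonneg_right hconst hT0)

end Abstract

section Lp

variable {ι K : Type*} [Fintype ι] [DecidableEq ι] [Fintype K]

/-- `p`-th power of the `ℓ_p` distance of the points `x a`, `x b`. -/
noncomputable def vv (x : ι → K → ℝ) (p : ℝ) (a b : ι) : ℝ := ∑ k, |x a k - x b k| ^ p

/-- The `ℓ_p` distance of the points `x a`, `x b`. -/
noncomputable def dd (x : ι → K → ℝ) (p : ℝ) (a b : ι) : ℝ := (vv x p a b) ^ (1 / p)

omit [Fintype ι] [DecidableEq ι] in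
theorem vv_nonneg (x : ι → K → ℝ) (p : ℝ) (a b : ι) : 0 ≤ vv x p a b :=
  Finset.sum_nonneg (fun _ _ => Real.rpow_nonneg (abs_nonneg _) p)

omit [Fintype ι] [DecidableEq ι] in
theorem dd_rpow (x : ι → K → ℝ) (p : ℝ) (hp : 0 < p) (a b : ι) :
    dd x p a b ^ p = vv x p a b := by
  unfold dd
  rw [← Real.rpow_mul (vv_nonneg x p a b), one_div_mul_cancel hp.ne', Real.rpow_one]

omit [Fintype ι] [DecidableEq ι] in
theorem dd_self (x : ι → K → ℝ) (p : ℝ) (hp : 0 < p) (a : ι) : dd x p a a = 0 := by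
  have h : vv x p a a = 0 := by
    unfold vv
    apply Finset.sum_eq_zero
    intro k _
    rw [sub_self, abs_zero, Real.zero_rpow hp.ne']
  unfold dd
  rw [h, Real.zero_rpow (one_div_ne_zero hp.ne')]

omit [Fintype ι] [DecidableEq ι] in
theorem dd_symm (x : ι → K → ℝ) (p : ℝ) (a b : ι) : dd x p a b = dd x p b a := by
  unfold dd vv
  congr 1
  apply Finset.sum_congr rfl
  intro k _
  rw [abs_sub_comm]

omit [Fintype ι] [DecidableEq ι] in
theorem dd_tri (x : ι → K → ℝ) (p : ℝ) (hp : 1 ≤ p) (a b c : ι) :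
    dd x p a c ≤ dd x p a b + dd x p b c := by
  have h := Real.Lp_add_le univ (fun k => x a k - x b k) (fun k => x b k - x c k) hp
  simp only [sub_add_sub_cancel] at h
  exact h

theorem add_rpow_le (p : ℝ) (hp : 1 ≤ p) (a b : ℝ) (ha : 0 ≤ a) (hb : 0 ≤ b) :
    (a + b) ^ p ≤ 2 ^ (p - 1) * (a ^ p + b ^ p) := by
  have h := NNReal.rpow_add_le_mul_rpow_add_rpow ⟨a, ha⟩ ⟨b, hb⟩ hp
  have h2 := NNReal.coe_le_coe.2 h
  push_cast at h2
  exact h2

theorem w_tri (p : ℝ) (hp : 1 ≤ p) (u v z : ℝ) :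
    |u - v| ^ p ≤ 2 ^ (p - 1) * (|u - z| ^ p + |v - z| ^ p) := by
  have h1 : |u - v| ≤ |u - z| + |v - z| := by
    have := abs_sub_le u z v
    rw [abs_sub_comm z v] at this
    exact this
  have h2 : |u - v| ^ p ≤ (|u - z| + |v - z|) ^ p :=
    Real.rpow_le_rpow (abs_nonneg _) h1 (by linarith)
  exact h2.trans (add_rpow_le p hp _ _ (abs_nonneg _) (abs_nonneg _))

/-- **Pair-sensitivity bound**, raw form: coordinate weights `s k ≥ 0` dominating every
coordinate's share of every pairwise `p`-th power distance, with total at most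
`n * H_n` times the `p`-th power of `4 ⌊log₂ n⌋ + 4`, `n` the number of points. -/
theorem sensitivity_raw (p : ℝ) (hp : 1 ≤ p) (x : ι → K → ℝ) :
    ∃ s : K → ℝ, (∀ k, 0 ≤ s k) ∧
      (∀ a b k, |x a k - x b k| ^ p ≤ s k * ∑ k', |x a k' - x b k'| ^ p) ∧
      ∑ k, s k ≤ (4 * (Nat.log 2 (Fintype.card ι) : ℝ) + 4) ^ p *
        ((Fintype.card ι : ℝ) * (harmonic (Fintype.card ι) : ℝ)) := by
  have hp0 : 0 < p := by linarith
  have hc0 : (0 : ℝ) ≤ (4 * (Nat.log 2 (Fintype.card ι) : ℝ) + 4) ^ p := by positivity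
  have hdnn : ∀ a b, 0 ≤ dd x p a b := fun a b => Real.rpow_nonneg (vv_nonneg x p a b) _
  have hw0 : ∀ (k : K) (a b : ι), 0 ≤ |x a k - x b k| ^ p :=
    fun k a b => Real.rpow_nonneg (abs_nonneg _) p
  have hzero : ∀ (k : K) (a b : ι), vv x p a b = 0 → |x a k - x b k| ^ p = 0 := by
    intro k a b hv
    unfold vv at hv
    exact (Finset.sum_eq_zero_iff_of_nonneg (fun k _ => hw0 k a b)).1 hv k (Finset.mem_univ k)
  refine ⟨fun k => (4 * (Nat.log 2 (Fintype.card ι) : ℝ) + 4) ^ p *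
    ∑ a, ∑ b, pot (dd x p) (fun a b => |x a k - x b k| ^ p) p a b, ?_, ?_, ?_⟩
  · intro k
    apply mul_nonneg hc0
    exact Finset.sum_nonneg fun a _ => Finset.sum_nonneg fun b _ =>
      pot_nonneg (dd x p) _ p hdnn (hw0 k) a b
  · intro a b k
    have h := abstract_A1 (dd x p) (fun a b => |x a k - x b k| ^ p) p hp
      (dd_self x p hp0) (dd_symm x p) (dd_tri x p hp) (hw0 k)
      (fun i j l => w_tri p hp (x i k) (x j k) (x l k))
      (fun a b h0 => by
        apply hzero k a b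
        rw [← dd_rpow x p hp0 a b, h0, Real.zero_rpow hp0.ne']) a b
    rw [dd_rpow x p hp0] at h
    by_cases hv : vv x p a b = 0
    · rw [hzero k a b hv]
      have : ∑ k', |x a k' - x b k'| ^ p = 0 := hv
      rw [this, mul_zero]
    · have hvpos : 0 < vv x p a b := lt_of_le_of_ne (vv_nonneg x p a b) (Ne.symm hv)
      exact (div_le_iff₀ hvpos).mp h
  · rw [← Finset.mul_sum]
    apply mul_le_mul_of_nonneg_left _ hc0
    calc ∑ k, ∑ a, ∑ b, pot (dd x p) (fun a b => |x a k - x b k| ^ p) p a b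
        = ∑ a, ∑ b, ∑ k, pot (dd x p) (fun a b => |x a k - x b k| ^ p) p a b := by
          rw [Finset.sum_comm]
          apply Finset.sum_congr rfl
          intro a _
          rw [Finset.sum_comm]
      _ ≤ ∑ a, ∑ b, 1 / (ballCard (dd x p) a (dd x p a b) : ℝ) := by
          apply Finset.sum_le_sum
          intro a _
          apply Finset.sum_le_sum
          intro b _
          unfold pot
          rw [← Finset.mul_sum, ← Finset.sum_div, dd_rpow x p hp0]
          have h1 : (∑ k, |x a k - x b k| ^ p) / vv x p a b ≤ 1 := div_self_le_one _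
          have h2 : (0 : ℝ) ≤ 1 / (ballCard (dd x p) a (dd x p a b) : ℝ) := by positivity
          calc 1 / (ballCard (dd x p) a (dd x p a b) : ℝ)
                * ((∑ k, |x a k - x b k| ^ p) / vv x p a b)
              ≤ 1 / (ballCard (dd x p) a (dd x p a b) : ℝ) * 1 :=
                mul_le_mul_of_nonneg_left h1 h2
            _ = 1 / (ballCard (dd x p) a (dd x p a b) : ℝ) := mul_one _
      _ ≤ ∑ _a : ι, (harmonic (Fintype.card ι) : ℝ) := by
          apply Finset.sum_le_sum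
          intro a _
          exact sum_inv_rank_le (fun y => dd x p a y) (Fintype.card ι) univ Finset.card_univ
      _ = (Fintype.card ι : ℝ) * (harmonic (Fintype.card ι) : ℝ) := by
          rw [Finset.sum_const, Finset.card_univ, nsmul_eq_mul]

end Lp

/-- The raw bound, `n * H_n` times the `p`-th power of `4 ⌊log₂ n⌋ + 4`, is at most `3 * 12^p * n * (log n)^(p+1)`
for `n ≥ 2`. -/
theorem raw_bound_le (p : ℝ) (hp : 1 ≤ p) (n : ℕ) (hn : 2 ≤ n) :
    (4 * (Nat.log 2 n : ℝ) + 4) ^ p * ((n : ℝ) * (harmonic n : ℝ))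
      ≤ 3 * (12 : ℝ) ^ p * n * Real.log n ^ (p + 1) := by
  have hp0 : 0 < p := by linarith
  have hn2 : (2 : ℝ) ≤ (n : ℝ) := by exact_mod_cast hn
  have hl2 : (0.69 : ℝ) < Real.log 2 := by
    have := Real.log_two_gt_d9
    linarith
  have hL : Real.log 2 ≤ Real.log n := Real.log_le_log (by norm_num) hn2
  have hLpos : 0 < Real.log n := by linarith
  have hM : (Nat.log 2 n : ℝ) ≤ Real.log n / Real.log 2 := by
    have := Real.natLog_le_logb n 2
    rw [Real.logb] at this
    exact_mod_cast this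
  have hM' : (Nat.log 2 n : ℝ) * Real.log 2 ≤ Real.log n := by
    rwa [le_div_iff₀ (by linarith)] at hM
  have h1 : 4 * (Nat.log 2 n : ℝ) + 4 ≤ 12 * Real.log n := by
    have hMnn : (0 : ℝ) ≤ (Nat.log 2 n : ℝ) := Nat.cast_nonneg _
    nlinarith
  have h2 : (4 * (Nat.log 2 n : ℝ) + 4) ^ p ≤ (12 : ℝ) ^ p * Real.log n ^ p := by
    rw [← Real.mul_rpow (by norm_num) hLpos.le]
    exact Real.rpow_le_rpow (by positivity) h1 hp0.le
  have h3 : (harmonic n : ℝ) ≤ 3 * Real.log n := by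
    have := harmonic_le_one_add_log n
    linarith
  have h4 : (0 : ℝ) ≤ (harmonic n : ℝ) := by
    have : (0 : ℚ) ≤ harmonic n := by
      unfold harmonic
      positivity
    exact_mod_cast this
  have h5 : Real.log n ^ (p + 1) = Real.log n ^ p * Real.log n :=
    Real.rpow_add_one hLpos.ne' p
  have h6 : (0 : ℝ) ≤ (12 : ℝ) ^ p * Real.log n ^ p := by positivity
  have hn0 : (0 : ℝ) ≤ (n : ℝ) := Nat.cast_nonneg _
  calc (4 * (Nat.log 2 n : ℝ) + 4) ^ p * ((n : ℝ) * (harmonic n : ℝ))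
      ≤ ((12 : ℝ) ^ p * Real.log n ^ p) * ((n : ℝ) * (3 * Real.log n)) := by
        apply mul_le_mul h2 _ (mul_nonneg hn0 h4) h6
        exact mul_le_mul_of_nonneg_left h3 hn0
    _ = 3 * (12 : ℝ) ^ p * n * Real.log n ^ (p + 1) := by
        rw [h5]; ring

/-- **Pair-sensitivity bound** (piece (A) of the near-linear dimension reduction in `ℓ_p`):
for `n ≥ 2` points `x a` of `ℝ^m` and `p ≥ 1` there are coordinate weights `s k ≥ 0` with
`|x a k - x b k|^p ≤ s k * ∑ k', |x a k' - x b k'|^p` for all pairs `a, b` and all coordinates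
`k`, of total `∑ k, s k ≤ 3 * 12^p * n * (log n)^(p+1)`. -/
theorem sensitivity (p : ℝ) (hp : 1 ≤ p) (n m : ℕ) (hn : 2 ≤ n) (x : Fin n → Fin m → ℝ) :
    ∃ s : Fin m → ℝ, (∀ k, 0 ≤ s k) ∧
      (∀ a b k, |x a k - x b k| ^ p ≤ s k * ∑ k', |x a k' - x b k'| ^ p) ∧
      ∑ k, s k ≤ 3 * (12 : ℝ) ^ p * n * Real.log n ^ (p + 1) := by
  obtain ⟨s, hs0, hs1, hs2⟩ := sensitivity_raw p hp x
  refine ⟨s, hs0, hs1, hs2.trans ?_⟩
  rw [Fintype.card_fin]
  exact raw_bound_le p hp n hn

end Vale.Agent.Lib.P249.H95
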