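import Vale.Agent.Lib.P249.helper95.Knn
import Vale.Agent.Lib.P249.helper95.Sensitivity

/-!
# P249: total pair sensitivity at most `76 ^ q * n` (no logarithm)

For `n` points `x i : Fin m → ℝ` and an exponent `q ≥ 1` there are weights `s k ≥ 0` on the
coordinates with `|x i k - x j k| ^ q ≤ s k * ∑ k', |x i k' - x j k'| ^ q` for all pairs
`i, j` and all coordinates `k`, and `∑ k, s k ≤ 76 ^ q * n`.

This is `knn_main` for the `ℓ_q` distance of the points and the coordinate functions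
`g a = x a k`, with `L` the least integer above `2 * 10 ^ q`; the weights are
`s k = C ^ q * ∑_{a, b} phi a b * |x a k - x b k| ^ q / ‖x a - x b‖_q ^ q` and the row sums
of `phi` are at most `1`.
-/

namespace Vale.Agent.Lib.P249.H95.Knn

open Finset

theorem const_le (q : ℝ) (hq : 1 ≤ q) :
    16 + (2 * ((⌈2 * (10 : ℝ) ^ q⌉₊ : ℕ) : ℝ)) ^ (1 / q) ≤ 76 := by
  have hq0 : 0 < q := by linarith
  have h10 : (10 : ℝ) ≤ (10 : ℝ) ^ q := by
    have := Real.rpow_le_rpow_of_exponent_le (by norm_num : (1 : ℝ) ≤ 10) hq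
    rwa [Real.rpow_one] at this
  have hceil : ((⌈2 * (10 : ℝ) ^ q⌉₊ : ℕ) : ℝ) < 2 * (10 : ℝ) ^ q + 1 :=
    Nat.ceil_lt_add_one (by positivity)
  have h2L : 2 * ((⌈2 * (10 : ℝ) ^ q⌉₊ : ℕ) : ℝ) ≤ 6 * (10 : ℝ) ^ q := by linarith
  have h1 : (2 * ((⌈2 * (10 : ℝ) ^ q⌉₊ : ℕ) : ℝ)) ^ (1 / q) ≤ (6 * (10 : ℝ) ^ q) ^ (1 / q) :=
    Real.rpow_le_rpow (by positivity) h2L (by positivity)
  have h2 : (6 * (10 : ℝ) ^ q) ^ (1 / q) = (6 : ℝ) ^ (1 / q) * 10 := by
    rw [Real.mul_rpow (by norm_num) (by positivity), ← Real.rpow_mul (by norm_num),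
      mul_one_div_cancel hq0.ne', Real.rpow_one]
  have h3 : (6 : ℝ) ^ (1 / q) ≤ 6 := by
    have h : 1 / q ≤ 1 := by
      rw [div_le_one hq0]
      exact hq
    have := Real.rpow_le_rpow_of_exponent_le (by norm_num : (1 : ℝ) ≤ 6) h
    rwa [Real.rpow_one] at this
  rw [h2] at h1
  linarith

/-- **Total pair sensitivity without a logarithm.** -/
theorem sens_knn (q : ℝ) (hq : 1 ≤ q) (n m : ℕ) (x : Fin n → Fin m → ℝ) :
    ∃ s : Fin m → ℝ, (∀ k, 0 ≤ s k) ∧
      (∀ k i j, |x i k - x j k| ^ q ≤ s k * ∑ k', |x i k' - x j k'| ^ q) ∧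
      ∑ k, s k ≤ 76 ^ q * n := by
  have hq0 : 0 < q := by linarith
  obtain ⟨S, hS1, hS2⟩ := exists_nn (dd x q)
  obtain ⟨L, hLdef⟩ : ∃ L : ℕ, L = ⌈2 * (10 : ℝ) ^ q⌉₊ := ⟨_, rfl⟩
  have hL : 2 * (10 : ℝ) ^ q ≤ (L : ℝ) := by
    rw [hLdef]
    exact Nat.le_ceil _
  have h10 : (0 : ℝ) < (10 : ℝ) ^ q := Real.rpow_pos_of_pos (by norm_num) _
  have hLpos : 1 ≤ L := by
    have h : (0 : ℝ) < (L : ℝ) := by linarith
    have h' : 0 < L := by exact_mod_cast h
    omega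
  obtain ⟨C, hC⟩ : ∃ C : ℝ, C = 16 + (2 * (L : ℝ)) ^ (1 / q) := ⟨_, rfl⟩
  have hC0 : 0 ≤ C := by
    rw [hC]
    have := Real.rpow_nonneg (by positivity : (0 : ℝ) ≤ 2 * (L : ℝ)) (1 / q)
    linarith
  have hC76 : C ≤ 76 := by
    rw [hC, hLdef]
    exact const_le q hq
  have hd0 : ∀ a b, 0 ≤ dd x q a b := fun a b => Real.rpow_nonneg (vv_nonneg x q a b) _
  refine ⟨fun k => C ^ q * TT (dd x q) S L q (fun a => x a k), ?_, ?_, ?_⟩
  · intro k
    exact mul_nonneg (Real.rpow_nonneg hC0 _) (TT_nonneg _ hd0 S L q _)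
  · intro k i j
    have hg : ∀ a b, dd x q a b = 0 → x a k = x b k := by
      intro a b hab
      have hv : vv x q a b = 0 := by
        rw [← dd_rpow x q hq0 a b, hab, Real.zero_rpow hq0.ne']
      unfold vv at hv
      have hterm := (sum_eq_zero_iff_of_nonneg
        (fun k' _ => Real.rpow_nonneg (abs_nonneg (x a k' - x b k')) q)).mp hv k (mem_univ k)
      have habs : |x a k - x b k| = 0 := by
        by_contra hne
        have hpos : 0 < |x a k - x b k| := lt_of_le_of_ne (abs_nonneg _) (Ne.symm hne)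
        have := Real.rpow_pos_of_pos hpos q
        linarith
      exact sub_eq_zero.mp (abs_eq_zero.mp habs)
    have h := knn_main (dd_symm x q) (fun a b c => dd_tri x q hq a b c) (dd_self x q hq0)
      hS1 hS2 hq hL (fun a => x a k) hg i j
    rw [dd_rpow x q hq0 i j, ← hC] at h
    have hv : vv x q i j = ∑ k', |x i k' - x j k'| ^ q := rfl
    rw [hv] at h
    calc |x i k - x j k| ^ q
        ≤ C ^ q * (∑ k', |x i k' - x j k'| ^ q) * TT (dd x q) S L q (fun a => x a k) := h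
      _ = C ^ q * TT (dd x q) S L q (fun a => x a k) * ∑ k', |x i k' - x j k'| ^ q := by ring
  · have hsum : ∑ k, TT (dd x q) S L q (fun a => x a k) ≤ n := by
      unfold TT
      rw [sum_comm]
      have h1 : ∀ e : Fin n × Fin n,
          ∑ k, phi S L e.1 e.2 * (|x e.1 k - x e.2 k| ^ q / dd x q e.1 e.2 ^ q)
            ≤ phi S L e.1 e.2 := by
        intro e
        rw [← mul_sum, ← sum_div, dd_rpow x q hq0]
        have hv : ∑ k, |x e.1 k - x e.2 k| ^ q = vv x q e.1 e.2 := rfl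
        rw [hv]
        have hle : vv x q e.1 e.2 / vv x q e.1 e.2 ≤ 1 := div_self_le_one _
        calc phi S L e.1 e.2 * (vv x q e.1 e.2 / vv x q e.1 e.2)
            ≤ phi S L e.1 e.2 * 1 := mul_le_mul_of_nonneg_left hle (phi_nonneg S L _ _)
          _ = phi S L e.1 e.2 := mul_one _
      calc ∑ e : Fin n × Fin n,
            ∑ k, phi S L e.1 e.2 * (|x e.1 k - x e.2 k| ^ q / dd x q e.1 e.2 ^ q)
          ≤ ∑ e : Fin n × Fin n, phi S L e.1 e.2 := sum_le_sum (fun e _ => h1 e)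
        _ = ∑ a, ∑ b, phi S L a b := Fintype.sum_prod_type _
        _ ≤ ∑ _a : Fin n, (1 : ℝ) := sum_le_sum (fun a _ => phi_row_sum S hS1 L hLpos a)
        _ = n := by simp
    rw [← mul_sum]
    have hCq : C ^ q ≤ 76 ^ q := Real.rpow_le_rpow hC0 hC76 hq0.le
    have hs0 : 0 ≤ ∑ k, TT (dd x q) S L q (fun a => x a k) :=
      sum_nonneg (fun k _ => TT_nonneg _ hd0 S L q _)
    exact mul_le_mul hCq hsum hs0 (by positivity)

end Vale.Agent.Lib.P249.H95.Knn
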