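import Mathlib

/-!
# P249: a sparse hop-spanner for finite metric data (greedy construction)

For a symmetric function `d` on a finite type `V` with `card V ≤ 2 ^ K`, `K ≥ 1`, there is a
set `E` of at most `4 * card V` ordered pairs such that any two points `i`, `j` are
joined by a path without repeated vertices, of at most `2 * K - 1` hops, all hops in `E` and
each hop `x, y` with `d x y ≤ d i j`.

The proof is the greedy construction: the pairs are processed in order of increasing `d`, and
a pair is inserted when its two points are not yet joined by at most `2 * K - 1` hops. The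
resulting graph has no short cycle, hence (Moore bound, by layers of exact hop distance) every
vertex set contains a vertex with at most two neighbours inside the set.
-/

namespace Vale.Agent.Lib.P249.H95

open Finset

section Reach

variable {V : Type*}

/-- `Reach adj h a b`: there is a walk from `a` to `b` with at most `h` hops of `adj`. -/
def Reach (adj : V → V → Prop) : ℕ → V → V → Prop
  | 0, a, b => a = b
  | h + 1, a, b => Reach adj h a b ∨ ∃ c, adj a c ∧ Reach adj h c b

theorem reach_refl (adj : V → V → Prop) (h : ℕ) (a : V) : Reach adj h a a := by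
  induction h with
  | zero => exact rfl
  | succ h ih => exact Or.inl ih

theorem reach_mono_hops {adj : V → V → Prop} {h h' : ℕ} (hh : h ≤ h') {a b : V}
    (H : Reach adj h a b) : Reach adj h' a b := by
  induction hh with
  | refl => exact H
  | step _ ih => exact Or.inl ih

theorem reach_mono_adj {adj adj' : V → V → Prop} (hsub : ∀ x y, adj x y → adj' x y) :
    ∀ {h : ℕ} {a b : V}, Reach adj h a b → Reach adj' h a b := by
  intro h
  induction h with
  | zero => intro a b H; exact H
  | succ h ih =>
    intro a b H
    rcases H with H | ⟨c, hc, H⟩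
    · exact Or.inl (ih H)
    · exact Or.inr ⟨c, hsub _ _ hc, ih H⟩

theorem reach_step {adj : V → V → Prop} {a b : V} (hab : adj a b) : Reach adj 1 a b :=
  Or.inr ⟨b, hab, rfl⟩

theorem reach_trans {adj : V → V → Prop} :
    ∀ {h h' : ℕ} {a b c : V}, Reach adj h a b → Reach adj h' b c → Reach adj (h + h') a c := by
  intro h
  induction h with
  | zero =>
    intro h' a b c H H'
    have hab : a = b := H
    subst hab
    simpa using H'
  | succ h ih =>
    intro h' a b c H H'
    rcases H with H | ⟨x, hx, H⟩
    · exact reach_mono_hops (by omega) (ih H H')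
    · have h1 := ih H H'
      have e : h + 1 + h' = (h + h') + 1 := by omega
      rw [e]
      exact Or.inr ⟨x, hx, h1⟩

theorem reach_symm {adj : V → V → Prop} (hsymm : ∀ x y, adj x y → adj y x) :
    ∀ {h : ℕ} {a b : V}, Reach adj h a b → Reach adj h b a := by
  intro h
  induction h with
  | zero => intro a b H; exact (H : a = b).symm
  | succ h ih =>
    intro a b H
    rcases H with H | ⟨c, hc, H⟩
    · exact Or.inl (ih H)
    · exact reach_trans (ih H) (reach_step (hsymm _ _ hc))

/-- The relation `adj` with the edge `a, b` added (both orientations). -/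
def addEdge (adj : V → V → Prop) (a b : V) : V → V → Prop :=
  fun x y => adj x y ∨ (x = a ∧ y = b) ∨ (x = b ∧ y = a)

/-- The relation `adj` with the edge `c, d` removed (both orientations). -/
def delEdge (adj : V → V → Prop) (c d : V) : V → V → Prop :=
  fun x y => adj x y ∧ ¬(x = c ∧ y = d) ∧ ¬(x = d ∧ y = c)

/-- The relation `adj` with all edges at the vertex `x` removed. -/
def avoid (adj : V → V → Prop) (x : V) : V → V → Prop :=
  fun a b => adj a b ∧ a ≠ x ∧ b ≠ x

/-- Transfer lemma: a walk in `adj` plus one edge `a, b` either avoids the new edge, or splits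
into a walk to one end of the new edge and a walk from its other end. -/
theorem reach_addEdge {adj : V → V → Prop} {a b : V} :
    ∀ {h : ℕ} {c d : V}, Reach (addEdge adj a b) h c d →
      Reach adj h c d ∨ ∃ α β, α + β + 1 ≤ h ∧
        ((Reach adj α c a ∧ Reach adj β b d) ∨ (Reach adj α c b ∧ Reach adj β a d)) := by
  intro h
  induction h with
  | zero => intro c d H; exact Or.inl H
  | succ h ih =>
    intro c d H
    rcases H with H | ⟨x, hx, H⟩
    · rcases ih H with H' | ⟨α, β, hαβ, H'⟩
      · exact Or.inl (Or.inl H')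
      · exact Or.inr ⟨α, β, by omega, H'⟩
    · rcases hx with hx | ⟨hca, hxb⟩ | ⟨hcb, hxa⟩
      · rcases ih H with H' | ⟨α, β, hαβ, H' | H'⟩
        · exact Or.inl (Or.inr ⟨x, hx, H'⟩)
        · exact Or.inr ⟨α + 1, β, by omega, Or.inl ⟨Or.inr ⟨x, hx, H'.1⟩, H'.2⟩⟩
        · exact Or.inr ⟨α + 1, β, by omega, Or.inr ⟨Or.inr ⟨x, hx, H'.1⟩, H'.2⟩⟩
      · subst hca hxb
        rcases ih H with H' | ⟨α, β, hαβ, H' | H'⟩
        · exact Or.inr ⟨0, h, by omega, Or.inl ⟨rfl, H'⟩⟩
        · exact Or.inr ⟨0, β, by omega, Or.inl ⟨rfl, H'.2⟩⟩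
        · exact Or.inl (reach_mono_hops (by omega) H'.2)
      · subst hcb hxa
        rcases ih H with H' | ⟨α, β, hαβ, H' | H'⟩
        · exact Or.inr ⟨0, h, by omega, Or.inr ⟨rfl, H'⟩⟩
        · exact Or.inl (reach_mono_hops (by omega) H'.2)
        · exact Or.inr ⟨0, β, by omega, Or.inr ⟨rfl, H'.2⟩⟩

/-- No edge `c, d` of `adj` has its ends joined by at most `t` hops of the other edges. -/
def GirthGt (adj : V → V → Prop) (t : ℕ) : Prop :=
  ∀ c d, adj c d → ¬ Reach (delEdge adj c d) t c d

theorem girthGt_mono {adj adj' : V → V → Prop} {t : ℕ} (hsub : ∀ x y, adj' x y → adj x y)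
    (hg : GirthGt adj t) : GirthGt adj' t := by
  intro c d hcd hR
  refine hg c d (hsub _ _ hcd) (reach_mono_adj ?_ hR)
  intro x y h
  exact ⟨hsub _ _ h.1, h.2.1, h.2.2⟩

theorem delEdge_symm {adj : V → V → Prop} (hsymm : ∀ x y, adj x y → adj y x) (c d : V) :
    ∀ x y, delEdge adj c d x y → delEdge adj c d y x := by
  intro x y h
  exact ⟨hsymm _ _ h.1, fun h' => h.2.2 ⟨h'.2, h'.1⟩, fun h' => h.2.1 ⟨h'.2, h'.1⟩⟩

theorem girthGt_addEdge {adj : V → V → Prop} {t : ℕ} (hsymm : ∀ x y, adj x y → adj y x)
    (hg : GirthGt adj t) {a b : V} (hab : ¬ Reach adj t a b) :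
    GirthGt (addEdge adj a b) t := by
  intro c d hcd hR
  rcases hcd with hcd | ⟨hca, hdb⟩ | ⟨hcb, hda⟩
  · -- an old edge
    have hsub : ∀ x y, delEdge (addEdge adj a b) c d x y →
        addEdge (delEdge adj c d) a b x y := by
      intro x y h
      rcases h.1 with h1 | h1 | h1
      · exact Or.inl ⟨h1, h.2.1, h.2.2⟩
      · exact Or.inr (Or.inl h1)
      · exact Or.inr (Or.inr h1)
    have hdel : ∀ x y, delEdge adj c d x y → adj x y := fun x y h => h.1
    have hds := delEdge_symm hsymm c d
    rcases reach_addEdge (reach_mono_adj hsub hR) with H | ⟨α, β, hαβ, H | H⟩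
    · exact hg c d hcd H
    · have h1 : Reach adj α a c := reach_mono_adj hdel (reach_symm hds H.1)
      have h2 : Reach adj 1 c d := reach_step hcd
      have h3 : Reach adj β d b := reach_mono_adj hdel (reach_symm hds H.2)
      exact hab (reach_mono_hops (by omega) (reach_trans (reach_trans h1 h2) h3))
    · have h1 : Reach adj α b c := reach_mono_adj hdel (reach_symm hds H.1)
      have h2 : Reach adj 1 c d := reach_step hcd
      have h3 : Reach adj β d a := reach_mono_adj hdel (reach_symm hds H.2)
      exact hab (reach_symm hsymm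
        (reach_mono_hops (by omega) (reach_trans (reach_trans h1 h2) h3)))
  · -- the new edge, orientation `a, b`
    subst hca hdb
    have hsub : ∀ x y, delEdge (addEdge adj c d) c d x y → adj x y := by
      intro x y h
      rcases h.1 with h1 | h1 | h1
      · exact h1
      · exact absurd h1 h.2.1
      · exact absurd h1 h.2.2
    exact hab (reach_mono_adj hsub hR)
  · -- the new edge, orientation `b, a`
    subst hcb hda
    have hsub : ∀ x y, delEdge (addEdge adj d c) c d x y → adj x y := by
      intro x y h
      rcases h.1 with h1 | h1 | h1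
      · exact h1
      · exact absurd h1 h.2.2
      · exact absurd h1 h.2.1
    exact hab (reach_symm hsymm (reach_mono_adj hsub hR))

/-- A walk of at most `j` hops that cannot reach `x` within `j` hops does not pass through
`x`. -/
theorem reach_avoid {adj : V → V → Prop} {x : V} :
    ∀ {j : ℕ} {v y : V}, ¬ Reach adj j v x → Reach adj j v y → Reach (avoid adj x) j v y := by
  intro j
  induction j with
  | zero => intro v y _ H; exact H
  | succ j ih =>
    intro v y hx H
    have hx0 : ¬ Reach adj j v x := fun h => hx (Or.inl h)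
    rcases H with H | ⟨c, hc, H⟩
    · exact Or.inl (ih hx0 H)
    · have hcx : ¬ Reach adj j c x := fun h => hx (Or.inr ⟨c, hc, h⟩)
      have hvx : v ≠ x := by
        rintro rfl
        exact hx (reach_refl _ _ _)
      have hcx' : c ≠ x := by
        rintro rfl
        exact hcx (reach_refl _ _ _)
      exact Or.inr ⟨c, ⟨hc, hvx, hcx'⟩, ih hcx H⟩

/-- A walk of at most `i + 1` hops to `x ≠ y`, when `y` is not within `i` hops, can be taken
to avoid `y`. -/
theorem reach_avoid' {adj : V → V → Prop} {y : V} :
    ∀ {i : ℕ} {v x : V}, x ≠ y → ¬ Reach adj i v y → Reach adj (i + 1) v x →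
      Reach (avoid adj y) (i + 1) v x := by
  intro i
  induction i with
  | zero =>
    intro v x hxy hy H
    have hvy : v ≠ y := fun h => hy h
    rcases H with H | ⟨c, hc, H⟩
    · exact Or.inl H
    · have hcx : c = x := H
      subst hcx
      exact reach_step ⟨hc, hvy, hxy⟩
  | succ i ih =>
    intro v x hxy hy H
    have hy0 : ¬ Reach adj i v y := fun h => hy (Or.inl h)
    rcases H with H | ⟨c, hc, H⟩
    · exact Or.inl (ih hxy hy0 H)
    · have hvy : v ≠ y := by
        rintro rfl
        exact hy (reach_refl _ _ _)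
      have hcy : c ≠ y := by
        rintro rfl
        exact hy (reach_mono_hops (by omega) (reach_step hc))
      have hcy' : ¬ Reach adj i c y := fun h => hy (Or.inr ⟨c, hc, h⟩)
      exact Or.inr ⟨c, ⟨hc, hvy, hcy⟩, ih hxy hcy' H⟩

/-- Fact A: a vertex `x` not within `j` hops of `v` has at most one neighbour within `j`
hops of `v` (if `2 j + 1 ≤ t`). -/
theorem factA {G : V → V → Prop} (hsymm : ∀ x y, G x y → G y x) {t : ℕ} (hg : GirthGt G t)
    {v x y y' : V} {j : ℕ} (hxy : G x y) (hxy' : G x y') (hne : y ≠ y')
    (hy : Reach G j v y) (hy' : Reach G j v y') (hx : ¬ Reach G j v x)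
    (hj : 2 * j + 1 ≤ t) : False := by
  have hsub : ∀ a b, avoid G x a b → delEdge G x y a b := by
    intro a b h
    exact ⟨h.1, fun h' => h.2.1 h'.1, fun h' => h.2.2 h'.2⟩
  have hds := delEdge_symm hsymm x y
  have h1 : Reach (delEdge G x y) j v y := reach_mono_adj hsub (reach_avoid hx hy)
  have h2 : Reach (delEdge G x y) j v y' := reach_mono_adj hsub (reach_avoid hx hy')
  have h3 : Reach (delEdge G x y) 1 x y' :=
    reach_step ⟨hxy', fun h' => hne h'.2.symm, fun h' => hne (h'.1.symm.trans h'.2.symm)⟩
  have h4 := reach_trans (reach_trans h3 (reach_symm hds h2)) h1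
  exact hg x y hxy (reach_mono_hops (by omega) h4)

/-- Fact B: two vertices at exact hop distance `i + 1` from `v` are not adjacent (if
`2 (i + 1) ≤ t`). -/
theorem factB {G : V → V → Prop} (hsymm : ∀ x y, G x y → G y x) (hirr : ∀ x, ¬ G x x) {t : ℕ}
    (hg : GirthGt G t) {v x y : V} {i : ℕ} (hxy : G x y)
    (hx : Reach G (i + 1) v x) (hy : Reach G (i + 1) v y)
    (hx0 : ¬ Reach G i v x) (hy0 : ¬ Reach G i v y) (hi : 2 * (i + 1) ≤ t) : False := by
  have hne : x ≠ y := by
    rintro rfl
    exact hirr _ hxy
  have hsub1 : ∀ a b, avoid G y a b → delEdge G x y a b := by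
    intro a b h
    exact ⟨h.1, fun h' => h.2.2 h'.2, fun h' => h.2.1 h'.1⟩
  have hsub2 : ∀ a b, avoid G x a b → delEdge G x y a b := by
    intro a b h
    exact ⟨h.1, fun h' => h.2.1 h'.1, fun h' => h.2.2 h'.2⟩
  have hds := delEdge_symm hsymm x y
  have h1 : Reach (delEdge G x y) (i + 1) v x := reach_mono_adj hsub1 (reach_avoid' hne hy0 hx)
  have h2 : Reach (delEdge G x y) (i + 1) v y :=
    reach_mono_adj hsub2 (reach_avoid' hne.symm hx0 hy)
  have h3 := reach_trans (reach_symm hds h1) h2
  exact hg x y hxy (reach_mono_hops (by omega) h3)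

/-- From a walk of at most `h` hops: a path without repeated vertices. -/
theorem exists_nodup_path {adj : V → V → Prop} :
    ∀ {h : ℕ} {a b : V}, Reach adj h a b →
      ∃ l : List V, l.Nodup ∧ l.length ≤ h + 1 ∧ l.head? = some a ∧ l.getLast? = some b ∧
        List.IsChain adj l ∧ ∀ z ∈ l, Reach adj h z b := by
  intro h
  induction h with
  | zero =>
    intro a b H
    have hab : a = b := H
    subst hab
    refine ⟨[a], List.nodup_singleton a, by simp, rfl, rfl, List.isChain_singleton a, ?_⟩
    intro z hz
    rw [List.mem_singleton] at hz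
    subst hz
    exact rfl
  | succ h ih =>
    intro a b H
    by_cases H0 : Reach adj h a b
    · obtain ⟨l, h1, h2, h3, h4, h5, h6⟩ := ih H0
      exact ⟨l, h1, by omega, h3, h4, h5, fun z hz => Or.inl (h6 z hz)⟩
    · rcases H with H | ⟨c, hc, H⟩
      · exact absurd H H0
      · obtain ⟨l, h1, h2, h3, h4, h5, h6⟩ := ih H
        refine ⟨a :: l, ?_, ?_, rfl, ?_, ?_, ?_⟩
        · exact List.nodup_cons.mpr ⟨fun ha => H0 (h6 a ha), h1⟩
        · simp only [List.length_cons]
          omega
        · rw [List.getLast?_cons, h4]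
          rfl
        · apply List.IsChain.cons h5
          intro y hy
          rw [h3] at hy
          have : c = y := by simpa using hy
          rw [← this]
          exact hc
        · intro z hz
          rcases List.mem_cons.mp hz with hz | hz
          · rw [hz]
            exact Or.inr ⟨c, hc, H⟩
          · exact Or.inl (h6 z hz)

/-- The greedy relation for the hop bound `t`; the head of the list is processed last. -/
def greedy (t : ℕ) : List (V × V) → V → V → Prop
  | [] => fun _ _ => False
  | e :: L => fun x y => greedy t L x y ∨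
      (¬ Reach (greedy t L) t e.1 e.2 ∧ ((x = e.1 ∧ y = e.2) ∨ (x = e.2 ∧ y = e.1)))

theorem greedy_symm (t : ℕ) : ∀ (L : List (V × V)) (x y : V), greedy t L x y → greedy t L y x := by
  intro L
  induction L with
  | nil => intro x y h; exact h
  | cons e L ih =>
    intro x y h
    rcases h with h | ⟨hn, h | h⟩
    · exact Or.inl (ih x y h)
    · exact Or.inr ⟨hn, Or.inr ⟨h.2, h.1⟩⟩
    · exact Or.inr ⟨hn, Or.inl ⟨h.2, h.1⟩⟩

theorem greedy_irrefl (t : ℕ) : ∀ (L : List (V × V)) (x : V), ¬ greedy t L x x := by
  intro L
  induction L with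
  | nil => intro x h; exact h
  | cons e L ih =>
    intro x h
    rcases h with h | ⟨hn, h | h⟩
    · exact ih x h
    · apply hn
      rw [← h.1, ← h.2]
      exact reach_refl _ _ _
    · apply hn
      rw [← h.1, ← h.2]
      exact reach_refl _ _ _

theorem greedy_mem (t : ℕ) : ∀ (L : List (V × V)) (x y : V), greedy t L x y →
    (x, y) ∈ L ∨ (y, x) ∈ L := by
  intro L
  induction L with
  | nil => intro x y h; exact absurd h (fun h => h)
  | cons e L ih =>
    intro x y h
    rcases h with h | ⟨_, h | h⟩
    · rcases ih x y h with h' | h'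
      · exact Or.inl (List.mem_cons_of_mem _ h')
      · exact Or.inr (List.mem_cons_of_mem _ h')
    · left
      rw [h.1, h.2]
      exact List.mem_cons_self
    · right
      rw [h.1, h.2]
      exact List.mem_cons_self

theorem greedy_mono_append (t : ℕ) (L₂ : List (V × V)) :
    ∀ (L₁ : List (V × V)) (x y : V), greedy t L₂ x y → greedy t (L₁ ++ L₂) x y := by
  intro L₁
  induction L₁ with
  | nil => intro x y h; exact h
  | cons e L₁ ih => intro x y h; exact Or.inl (ih x y h)

theorem greedy_reach_head (t : ℕ) (ht : 1 ≤ t) (e : V × V) (L : List (V × V)) :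
    Reach (greedy t (e :: L)) t e.1 e.2 := by
  by_cases h : Reach (greedy t L) t e.1 e.2
  · exact reach_mono_adj (fun x y hxy => Or.inl hxy) h
  · exact reach_mono_hops ht (reach_step (Or.inr ⟨h, Or.inl ⟨rfl, rfl⟩⟩))

theorem greedy_girth (t : ℕ) : ∀ L : List (V × V), GirthGt (greedy t L) t := by
  intro L
  induction L with
  | nil => intro c d h; exact absurd h (fun h => h)
  | cons e L ih =>
    by_cases h : Reach (greedy t L) t e.1 e.2
    · refine girthGt_mono ?_ ih
      intro x y hxy
      rcases hxy with hxy | ⟨hn, _⟩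
      · exact hxy
      · exact absurd h hn
    · refine girthGt_mono ?_ (girthGt_addEdge (greedy_symm t L) ih h)
      intro x y hxy
      rcases hxy with hxy | ⟨_, hxy⟩
      · exact Or.inl hxy
      · exact Or.inr hxy

end Reach

section Moore

variable {V : Type*} [Fintype V]

open Classical in
/-- The vertices at exact hop distance `j` from `v`. -/
noncomputable def lay (G : V → V → Prop) (v : V) (j : ℕ) : Finset V :=
  univ.filter (fun x => Reach G j v x ∧ ∀ i, i < j → ¬ Reach G i v x)

theorem mem_lay {G : V → V → Prop} {v : V} {j : ℕ} {x : V} :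
    x ∈ lay G v j ↔ Reach G j v x ∧ ∀ i, i < j → ¬ Reach G i v x := by
  classical
  simp [lay]

theorem mem_lay_succ {G : V → V → Prop} {v : V} {i : ℕ} {x : V} :
    x ∈ lay G v (i + 1) ↔ Reach G (i + 1) v x ∧ ¬ Reach G i v x := by
  rw [mem_lay]
  constructor
  · intro h
    exact ⟨h.1, h.2 i (Nat.lt_succ_self i)⟩
  · intro h
    exact ⟨h.1, fun i' hi' hR => h.2 (reach_mono_hops (by omega) hR)⟩

/-- A neighbour of a vertex at exact distance `i + 1` is at exact distance `i`, `i + 1` or
`i + 2`. -/
theorem lay_neighbour {G : V → V → Prop} (hsymm : ∀ x y, G x y → G y x) {v x y : V} {i : ℕ}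
    (hx : x ∈ lay G v (i + 1)) (hxy : G x y) :
    y ∈ lay G v i ∨ y ∈ lay G v (i + 1) ∨ y ∈ lay G v (i + 2) := by
  rw [mem_lay_succ] at hx
  have hy2 : Reach G (i + 1 + 1) v y := reach_trans hx.1 (reach_step hxy)
  have hlow : ∀ i', i' < i → ¬ Reach G i' v y := by
    intro i' hi' hR
    have h1 : Reach G (i' + 1) v x := reach_trans hR (reach_step (hsymm _ _ hxy))
    exact hx.2 (reach_mono_hops (by omega) h1)
  by_cases h1 : Reach G i v y
  · left
    exact mem_lay.mpr ⟨h1, hlow⟩
  · by_cases h2 : Reach G (i + 1) v y
    · right; left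
      exact mem_lay_succ.mpr ⟨h2, h1⟩
    · right; right
      exact mem_lay_succ.mpr ⟨hy2, h2⟩

open Classical in
/-- Moore bound by layers: if all vertices reachable from `v` have at least three neighbours
and there is no short cycle, the layers of exact distance at least double. -/
theorem moore {G : V → V → Prop} (hsymm : ∀ x y, G x y → G y x) (hirr : ∀ x, ¬ G x x) {t : ℕ}
    (hg : GirthGt G t) (v : V)
    (hdeg : ∀ x, (∃ j, Reach G j v x) → 3 ≤ (univ.filter (fun y => G x y)).card) :
    ∀ i, 2 * i + 1 ≤ t → 3 * 2 ^ i ≤ (lay G v (i + 1)).card := by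
  intro i
  induction i with
  | zero =>
    intro _
    have h3 := hdeg v ⟨0, rfl⟩
    have hsub : univ.filter (fun y => G v y) ⊆ lay G v (0 + 1) := by
      intro y hy
      rw [mem_filter] at hy
      rw [mem_lay_succ]
      refine ⟨reach_step hy.2, ?_⟩
      intro h0
      have hvy : v = y := h0
      rw [← hvy] at hy
      exact hirr v hy.2
    simpa using le_trans h3 (card_le_card hsub)
  | succ i ih =>
    intro hi
    have ih' := ih (by omega)
    have hm : ∀ x ∈ lay G v (i + 1), 2 ≤ ((lay G v (i + 1 + 1)).bipartiteAbove G x).card := by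
      intro x hx
      have hx' := mem_lay_succ.mp hx
      have h3 := hdeg x ⟨i + 1, hx'.1⟩
      have hcover : univ.filter (fun y => G x y) ⊆
          (univ.filter (fun y => G x y)).filter (fun y => y ∈ lay G v i) ∪
            (lay G v (i + 1 + 1)).bipartiteAbove G x := by
        intro y hy
        rw [mem_filter] at hy
        rcases lay_neighbour hsymm hx hy.2 with h | h | h
        · exact mem_union_left _ (mem_filter.mpr ⟨mem_filter.mpr hy, h⟩)
        · exfalso
          have hy' := mem_lay_succ.mp h
          exact factB hsymm hirr hg hy.2 hx'.1 hy'.1 hx'.2 hy'.2 (by omega)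
        · apply mem_union_right
          unfold Finset.bipartiteAbove
          exact mem_filter.mpr ⟨h, hy.2⟩
      have hA : ((univ.filter (fun y => G x y)).filter (fun y => y ∈ lay G v i)).card ≤ 1 := by
        rw [Finset.card_le_one]
        intro y hy y' hy'
        rw [mem_filter, mem_filter] at hy hy'
        by_contra hne
        exact factA hsymm hg hy.1.2 hy'.1.2 hne (mem_lay.mp hy.2).1 (mem_lay.mp hy'.2).1
          hx'.2 (by omega)
      have h4 := card_le_card hcover
      have h5 := card_union_le ((univ.filter (fun y => G x y)).filter (fun y => y ∈ lay G v i))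
        ((lay G v (i + 1 + 1)).bipartiteAbove G x)
      omega
    have hn : ∀ z ∈ lay G v (i + 1 + 1), ((lay G v (i + 1)).bipartiteBelow G z).card ≤ 1 := by
      intro z hz
      have hz' := mem_lay_succ.mp hz
      rw [Finset.card_le_one]
      intro y hy y' hy'
      unfold Finset.bipartiteBelow at hy hy'
      rw [mem_filter] at hy hy'
      by_contra hne
      exact factA hsymm hg (hsymm _ _ hy.2) (hsymm _ _ hy'.2) hne (mem_lay_succ.mp hy.1).1
        (mem_lay_succ.mp hy'.1).1 hz'.2 (by omega)
    have hcount := Finset.card_mul_le_card_mul G hm hn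
    have e : (2 : ℕ) ^ (i + 1) = 2 * 2 ^ i := by ring
    rw [e]
    omega

open Classical in
/-- Every nonempty vertex set contains a vertex with at most two neighbours in the set. -/
theorem exists_low_degree {G : V → V → Prop} (hsymm : ∀ x y, G x y → G y x)
    (hirr : ∀ x, ¬ G x x) {K : ℕ} (hK1 : 1 ≤ K) (hg : GirthGt G (2 * K - 1))
    (hn : Fintype.card V ≤ 2 ^ K) (W : Finset V) (hW : W.Nonempty) :
    ∃ x ∈ W, (W.filter (fun y => G x y)).card ≤ 2 := by
  by_contra hcon
  push Not at hcon
  obtain ⟨v, hv⟩ := hW
  obtain ⟨G', hG'⟩ : ∃ G' : V → V → Prop, ∀ a b, G' a b ↔ (G a b ∧ a ∈ W ∧ b ∈ W) :=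
    ⟨fun a b => G a b ∧ a ∈ W ∧ b ∈ W, fun _ _ => Iff.rfl⟩
  have hsymmW : ∀ x y, G' x y → G' y x := fun x y h =>
    (hG' y x).mpr ⟨hsymm _ _ ((hG' x y).mp h).1, ((hG' x y).mp h).2.2, ((hG' x y).mp h).2.1⟩
  have hirrW : ∀ x, ¬ G' x x := fun x h => hirr x ((hG' x x).mp h).1
  have hgW : GirthGt G' (2 * K - 1) := girthGt_mono (fun x y h => ((hG' x y).mp h).1) hg
  have hreach : ∀ j a x, a ∈ W → Reach G' j a x → x ∈ W := by
    intro j
    induction j with
    | zero =>
      intro a x ha h
      have hax : a = x := h
      rw [← hax]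
      exact ha
    | succ j ih =>
      intro a x ha h
      rcases h with h | ⟨c, hc, h⟩
      · exact ih a x ha h
      · exact ih c x ((hG' a c).mp hc).2.2 h
  have hdeg : ∀ x, (∃ j, Reach G' j v x) → 3 ≤ (univ.filter (fun y => G' x y)).card := by
    rintro x ⟨j, hj⟩
    have hxW := hreach j v x hv hj
    have h3 := hcon x hxW
    have hsub : W.filter (fun y => G x y) ⊆ univ.filter (fun y => G' x y) := by
      intro y hy
      rw [mem_filter] at hy
      exact mem_filter.mpr ⟨mem_univ _, (hG' x y).mpr ⟨hy.2, hxW, hy.1⟩⟩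
    exact le_trans h3 (card_le_card hsub)
  have hm := moore hsymmW hirrW hgW v hdeg (K - 1) (by omega)
  have hle : (lay G' v (K - 1 + 1)).card ≤ Fintype.card V := card_le_univ _
  have hpow : 2 ^ K = 2 * 2 ^ (K - 1) := by
    obtain ⟨k, rfl⟩ : ∃ k, K = k + 1 := ⟨K - 1, by omega⟩
    rw [Nat.add_sub_cancel, pow_succ]
    ring
  have hpos : 0 < 2 ^ (K - 1) := Nat.pos_of_ne_zero (by positivity)
  omega

open Classical in
/-- A relation without short cycles on at most `2 ^ K` points has at most `4 |W|` ordered
edges inside every vertex set `W`. -/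
theorem edge_count_le {G : V → V → Prop} (hsymm : ∀ x y, G x y → G y x)
    (hirr : ∀ x, ¬ G x x) {K : ℕ} (hK1 : 1 ≤ K) (hg : GirthGt G (2 * K - 1))
    (hn : Fintype.card V ≤ 2 ^ K) :
    ∀ (N : ℕ) (W : Finset V), W.card = N →
      ((W ×ˢ W).filter (fun p : V × V => G p.1 p.2)).card ≤ 4 * N := by
  intro N
  induction N with
  | zero =>
    intro W hW
    rw [card_eq_zero] at hW
    subst hW
    simp
  | succ N ih =>
    intro W hW
    have hne : W.Nonempty := by
      rw [← card_pos]; omega
    obtain ⟨x, hxW, hdx⟩ := exists_low_degree hsymm hirr hK1 hg hn W hne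
    have hcard : (W.erase x).card = N := by
      rw [card_erase_of_mem hxW]; omega
    have ih' := ih (W.erase x) hcard
    have hsub : (W ×ˢ W).filter (fun p : V × V => G p.1 p.2) ⊆
        ((W.erase x) ×ˢ (W.erase x)).filter (fun p : V × V => G p.1 p.2) ∪
          ((W.filter (fun y => G x y)).image (fun y => (x, y)) ∪
            (W.filter (fun y => G x y)).image (fun y => (y, x))) := by
      intro p hp
      rw [mem_filter, mem_product] at hp
      obtain ⟨⟨hp1, hp2⟩, hG⟩ := hp
      by_cases h1 : p.1 = x
      · apply mem_union_right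
        apply mem_union_left
        rw [mem_image]
        refine ⟨p.2, mem_filter.mpr ⟨hp2, by rw [← h1]; exact hG⟩, ?_⟩
        rw [← h1]
      · by_cases h2 : p.2 = x
        · apply mem_union_right
          apply mem_union_right
          rw [mem_image]
          refine ⟨p.1, mem_filter.mpr ⟨hp1, hsymm _ _ (by rw [← h2]; exact hG)⟩, ?_⟩
          rw [← h2]
        · apply mem_union_left
          rw [mem_filter, mem_product]
          exact ⟨⟨mem_erase.mpr ⟨h1, hp1⟩, mem_erase.mpr ⟨h2, hp2⟩⟩, hG⟩
    have h1 := card_le_card hsub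
    have h2 := card_union_le
      (((W.erase x) ×ˢ (W.erase x)).filter (fun p : V × V => G p.1 p.2))
      ((W.filter (fun y => G x y)).image (fun y => (x, y)) ∪
        (W.filter (fun y => G x y)).image (fun y => (y, x)))
    have h3 := card_union_le ((W.filter (fun y => G x y)).image (fun y => (x, y)))
      ((W.filter (fun y => G x y)).image (fun y => (y, x)))
    have h4 : ((W.filter (fun y => G x y)).image (fun y => (x, y))).card
        ≤ (W.filter (fun y => G x y)).card := card_image_le
    have h5 : ((W.filter (fun y => G x y)).image (fun y => (y, x))).card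
        ≤ (W.filter (fun y => G x y)).card := card_image_le
    omega

end Moore

/-- **Sparse hop-spanner.** For a symmetric function `d` on a finite type `V` with
`card V ≤ 2 ^ K`, `K ≥ 1`, there is a set `E` of at most `4 * card V` ordered pairs such that
any two points `i`, `j` are joined by a list of vertices without repetition, of length at most
`2 * K` (at most `2 * K - 1` hops), consecutive vertices `x`, `y` forming a pair of `E` with
`d x y ≤ d i j`. -/
theorem exists_sparse_hop_spanner {V : Type*} [Fintype V] [DecidableEq V]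
    (d : V → V → ℝ) (hd : ∀ x y, d x y = d y x) (K : ℕ) (hK1 : 1 ≤ K)
    (hK : Fintype.card V ≤ 2 ^ K) :
    ∃ E : Finset (V × V), E.card ≤ 4 * Fintype.card V ∧
      ∀ i j : V, ∃ l : List V, l.Nodup ∧ l.length ≤ 2 * K ∧ l.head? = some i ∧
        l.getLast? = some j ∧ List.IsChain (fun x y => (x, y) ∈ E ∧ d x y ≤ d i j) l := by
  classical
  have ht1 : 1 ≤ 2 * K - 1 := by omega
  obtain ⟨L, hLmem, hLsorted⟩ : ∃ L : List (V × V), (∀ p : V × V, p ∈ L) ∧
      L.Pairwise (fun e e' => d e'.1 e'.2 ≤ d e.1 e.2) := by
    refine ⟨((univ : Finset (V × V)).toList).mergeSort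
      (fun e e' => decide (d e'.1 e'.2 ≤ d e.1 e.2)), ?_, ?_⟩
    · intro p
      rw [List.mem_mergeSort]
      exact Finset.mem_toList.mpr (mem_univ p)
    · have h := List.pairwise_mergeSort
        (le := fun e e' : V × V => decide (d e'.1 e'.2 ≤ d e.1 e.2))
        (fun a b c hab hbc => by
          simp only [decide_eq_true_eq] at hab hbc ⊢
          exact le_trans hbc hab)
        (fun a b => by
          simp only [Bool.or_eq_true, decide_eq_true_eq]
          exact le_total _ _)
        ((univ : Finset (V × V)).toList)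
      refine h.imp ?_
      intro a b hab
      simpa using hab
  refine ⟨univ.filter (fun p : V × V => greedy (2 * K - 1) L p.1 p.2), ?_, ?_⟩
  · have h := edge_count_le (greedy_symm (2 * K - 1) L) (greedy_irrefl (2 * K - 1) L) hK1
      (greedy_girth (2 * K - 1) L) hK (Fintype.card V) univ card_univ
    rwa [univ_product_univ] at h
  · intro i j
    obtain ⟨L₁, L₂, hsplit⟩ := List.append_of_mem (hLmem (i, j))
    have hR : Reach (greedy (2 * K - 1) ((i, j) :: L₂)) (2 * K - 1) i j :=
      greedy_reach_head (2 * K - 1) ht1 (i, j) L₂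
    have hsorted2 : ∀ e' ∈ L₂, d e'.1 e'.2 ≤ d i j := by
      rw [hsplit] at hLsorted
      have h := (List.pairwise_append.mp hLsorted).2.1
      exact (List.pairwise_cons.mp h).1
    have hsub : ∀ x y, greedy (2 * K - 1) ((i, j) :: L₂) x y →
        (x, y) ∈ univ.filter (fun p : V × V => greedy (2 * K - 1) L p.1 p.2) ∧
          d x y ≤ d i j := by
      intro x y hxy
      constructor
      · rw [mem_filter]
        refine ⟨mem_univ _, ?_⟩
        rw [hsplit]
        exact greedy_mono_append (2 * K - 1) _ L₁ x y hxy
      · rcases greedy_mem (2 * K - 1) _ x y hxy with h | h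
        · rcases List.mem_cons.mp h with h | h
          · have h1 : x = i := congrArg Prod.fst h
            have h2 : y = j := congrArg Prod.snd h
            rw [h1, h2]
          · exact hsorted2 _ h
        · rcases List.mem_cons.mp h with h | h
          · have h1 : y = i := congrArg Prod.fst h
            have h2 : x = j := congrArg Prod.snd h
            rw [h1, h2, hd]
          · rw [hd]
            exact hsorted2 _ h
    obtain ⟨l, h1, h2, h3, h4, h5, _⟩ := exists_nodup_path (reach_mono_adj hsub hR)
    exact ⟨l, h1, by omega, h3, h4, h5⟩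

end Vale.Agent.Lib.P249.H95
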