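import Vale.Agent.Lib.P249.helper95.Spanner

/-!
# P249: total pair-sensitivity `O(n (log n)^(q-1))` from the sparse hop-spanner

For `n ≥ 2` points `x i : Fin m → ℝ` and an exponent `q ≥ 1` there are weights `s k ≥ 0` on
the coordinates with `|x i k - x j k| ^ q ≤ s k * ∑ k', |x i k' - x j k'| ^ q` for all
pairs `i, j` and all coordinates `k`, and `∑ k, s k ≤ 4 * 6 ^ (q - 1) * n * (log n) ^ (q - 1)`.

Proof: take the sparse hop-spanner `E` of `exists_sparse_hop_spanner` for the function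
`d i j = ∑ k, |x i k - x j k| ^ q`; each pair is joined by a path of fewer than `2 K` hops
(`K = Nat.clog 2 n`), all hops in `E` and no hop longer than the pair. The power mean
inequality along the path bounds the share of coordinate `k` in the pair by the power
`q - 1` of `2 K` times the sum of the shares of coordinate `k` in the pairs of `E`.
-/

namespace Vale.Agent.Lib.P249.H95

open Finset

/-- Along a chain without repeated vertices, the consecutive pairs form a finite set `T` of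
at most `length - 1` pairs, and the end-to-end difference of any real function is at most
the sum of its differences over `T`. -/
theorem chain_pairs {V : Type*} [DecidableEq V] (R : V → V → Prop) :
    ∀ l : List V, l.Nodup → ∀ i j : V, l.head? = some i → l.getLast? = some j →
      List.IsChain R l →
      ∃ T : Finset (V × V), T.card + 1 ≤ l.length ∧ (∀ e ∈ T, R e.1 e.2 ∧ e.1 ∈ l) ∧
        ∀ f : V → ℝ, |f i - f j| ≤ ∑ e ∈ T, |f e.1 - f e.2| := by
  intro l
  induction l with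
  | nil =>
    intro _ i j h
    simp at h
  | cons a l ih =>
    intro hnd i j hi hj hch
    have hia : a = i := by simpa using hi
    subst hia
    cases l with
    | nil =>
      have hja : a = j := by simpa using hj
      subst hja
      exact ⟨∅, by simp, by simp, by simp⟩
    | cons b l' =>
      have hnd' : (b :: l').Nodup := (List.nodup_cons.mp hnd).2
      have ha : a ∉ (b :: l') := (List.nodup_cons.mp hnd).1
      have hj' : (b :: l').getLast? = some j := by
        rw [List.getLast?_cons_cons] at hj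
        exact hj
      have hch2 := List.isChain_cons_cons.mp hch
      obtain ⟨T, hT1, hT2, hT3⟩ := ih hnd' b j rfl hj' hch2.2
      have hnot : (a, b) ∉ T := fun h => ha (hT2 _ h).2
      refine ⟨insert (a, b) T, ?_, ?_, ?_⟩
      · rw [card_insert_of_notMem hnot]
        simp only [List.length_cons] at hT1 ⊢
        omega
      · intro e he
        rcases mem_insert.mp he with h | h
        · rw [h]
          exact ⟨hch2.1, List.mem_cons_self⟩
        · exact ⟨(hT2 e h).1, List.mem_cons_of_mem _ (hT2 e h).2⟩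
      · intro f
        rw [sum_insert hnot]
        have h1 := hT3 f
        have h2 : |f a - f j| ≤ |f a - f b| + |f b - f j| := abs_sub_le _ _ _
        linarith

/-- `Nat.clog 2 n ≤ 3 log n` for `n ≥ 2`. -/
theorem clog_le_three_log (n : ℕ) (hn : 2 ≤ n) : (Nat.clog 2 n : ℝ) ≤ 3 * Real.log n := by
  have hl2 : (0.6931471803 : ℝ) < Real.log 2 := Real.log_two_gt_d9
  have hn' : (2 : ℝ) ≤ n := by exact_mod_cast hn
  have hlog : Real.log 2 ≤ Real.log n := Real.log_le_log (by norm_num) hn'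
  have hK1 : 1 ≤ Nat.clog 2 n := Nat.clog_pos (by norm_num) (by omega)
  have hlt : 2 ^ (Nat.clog 2 n - 1) < n := by
    have h := Nat.pow_pred_clog_lt_self (b := 2) (by norm_num) (x := n) (by omega)
    rwa [Nat.pred_eq_sub_one] at h
  have hlt' : ((2 : ℝ) ^ (Nat.clog 2 n - 1)) < n := by exact_mod_cast hlt
  have h1 : Real.log ((2 : ℝ) ^ (Nat.clog 2 n - 1)) < Real.log n :=
    Real.log_lt_log (by positivity) hlt'
  rw [Real.log_pow] at h1
  have h2 : ((Nat.clog 2 n - 1 : ℕ) : ℝ) = (Nat.clog 2 n : ℝ) - 1 := by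
    rw [Nat.cast_sub hK1]
    simp
  rw [h2] at h1
  have hK0 : (0 : ℝ) ≤ (Nat.clog 2 n : ℝ) := Nat.cast_nonneg _
  nlinarith [mul_nonneg hK0 (sub_nonneg.mpr hl2.le)]

/-- **Total pair-sensitivity from the hop-spanner.** -/
theorem sens_spanner (q : ℝ) (hq : 1 ≤ q) (n m : ℕ) (hn : 2 ≤ n) (x : Fin n → Fin m → ℝ) :
    ∃ s : Fin m → ℝ, (∀ k, 0 ≤ s k) ∧
      (∀ k i j, |x i k - x j k| ^ q ≤ s k * ∑ k', |x i k' - x j k'| ^ q) ∧
      ∑ k, s k ≤ 4 * 6 ^ (q - 1) * n * Real.log n ^ (q - 1) := by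
  classical
  obtain ⟨d, hd⟩ : ∃ d : Fin n → Fin n → ℝ, ∀ i j, d i j = ∑ k', |x i k' - x j k'| ^ q :=
    ⟨fun i j => ∑ k', |x i k' - x j k'| ^ q, fun _ _ => rfl⟩
  have hdsymm : ∀ a b, d a b = d b a := by
    intro a b
    rw [hd, hd]
    refine sum_congr rfl (fun k _ => ?_)
    rw [abs_sub_comm]
  have hd0 : ∀ a b, 0 ≤ d a b := by
    intro a b
    rw [hd]
    exact sum_nonneg (fun k _ => Real.rpow_nonneg (abs_nonneg _) _)
  have hK1 : 1 ≤ Nat.clog 2 n := Nat.clog_pos (by norm_num) (by omega)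
  have hcard : Fintype.card (Fin n) ≤ 2 ^ Nat.clog 2 n := by
    rw [Fintype.card_fin]
    exact Nat.le_pow_clog (by norm_num) n
  obtain ⟨E, hE, hpath⟩ := exists_sparse_hop_spanner d hdsymm (Nat.clog 2 n) hK1 hcard
  rw [Fintype.card_fin] at hE
  obtain ⟨r, hr⟩ : ∃ r : Fin m → Fin n × Fin n → ℝ,
      ∀ k e, r k e = |x e.1 k - x e.2 k| ^ q / d e.1 e.2 :=
    ⟨fun k e => |x e.1 k - x e.2 k| ^ q / d e.1 e.2, fun _ _ => rfl⟩
  have hr0 : ∀ k e, 0 ≤ r k e := by
    intro k e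
    rw [hr]
    exact div_nonneg (Real.rpow_nonneg (abs_nonneg _) _) (hd0 _ _)
  have hrsum : ∀ e, ∑ k, r k e ≤ 1 := by
    intro e
    have h1 : ∑ k, r k e = d e.1 e.2 / d e.1 e.2 := by
      rw [hd e.1 e.2, sum_div]
      refine sum_congr rfl (fun k _ => ?_)
      rw [hr, hd]
    rw [h1]
    exact div_self_le_one _
  have hrd : ∀ k e, |x e.1 k - x e.2 k| ^ q ≤ r k e * d e.1 e.2 := by
    intro k e
    by_cases h0 : d e.1 e.2 = 0
    · have hterm : |x e.1 k - x e.2 k| ^ q ≤ d e.1 e.2 := by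
        rw [hd]
        exact single_le_sum (f := fun k' => |x e.1 k' - x e.2 k'| ^ q)
          (fun k' _ => Real.rpow_nonneg (abs_nonneg _) _) (mem_univ k)
      rw [h0] at hterm ⊢
      rw [mul_zero]
      exact hterm
    · rw [hr, div_mul_cancel₀ _ h0]
  have hKpos : (0 : ℝ) ≤ 2 * (Nat.clog 2 n : ℝ) := by positivity
  have hq0 : 0 ≤ q - 1 := by linarith
  refine ⟨fun k => (2 * (Nat.clog 2 n : ℝ)) ^ (q - 1) * ∑ e ∈ E, r k e, ?_, ?_, ?_⟩
  · intro k
    exact mul_nonneg (Real.rpow_nonneg hKpos _) (sum_nonneg (fun e _ => hr0 k e))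
  · intro k i j
    obtain ⟨l, hnd, hlen, hhead, hlast, hch⟩ := hpath i j
    obtain ⟨T, hT1, hT2, hT3⟩ := chain_pairs _ l hnd i j hhead hlast hch
    have h1 := hT3 (fun v => x v k)
    have h2 := Real.rpow_sum_le_const_mul_sum_rpow T (fun e => x e.1 k - x e.2 k) hq
    have h3 : |x i k - x j k| ^ q ≤ (∑ e ∈ T, |x e.1 k - x e.2 k|) ^ q :=
      Real.rpow_le_rpow (abs_nonneg _) h1 (by linarith)
    have hTE : T ⊆ E := fun e he => (hT2 e he).1.1
    have h4 : ∑ e ∈ T, |x e.1 k - x e.2 k| ^ q ≤ ∑ e ∈ T, r k e * d i j := by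
      apply sum_le_sum
      intro e he
      exact le_trans (hrd k e) (mul_le_mul_of_nonneg_left (hT2 e he).1.2 (hr0 k e))
    have h5 : ∑ e ∈ T, r k e * d i j ≤ (∑ e ∈ E, r k e) * d i j := by
      rw [← sum_mul]
      exact mul_le_mul_of_nonneg_right
        (sum_le_sum_of_subset_of_nonneg hTE (fun e _ _ => hr0 k e)) (hd0 i j)
    have h6 : (T.card : ℝ) ^ (q - 1) ≤ (2 * (Nat.clog 2 n : ℝ)) ^ (q - 1) := by
      apply Real.rpow_le_rpow (Nat.cast_nonneg _) _ hq0
      have hc : T.card ≤ 2 * Nat.clog 2 n := by omega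
      exact_mod_cast hc
    have h7 : 0 ≤ ∑ e ∈ T, |x e.1 k - x e.2 k| ^ q :=
      sum_nonneg (fun e _ => Real.rpow_nonneg (abs_nonneg _) _)
    rw [← hd i j]
    calc |x i k - x j k| ^ q ≤ (∑ e ∈ T, |x e.1 k - x e.2 k|) ^ q := h3
      _ ≤ (T.card : ℝ) ^ (q - 1) * ∑ e ∈ T, |x e.1 k - x e.2 k| ^ q := h2
      _ ≤ (2 * (Nat.clog 2 n : ℝ)) ^ (q - 1) * ((∑ e ∈ E, r k e) * d i j) :=
          mul_le_mul h6 (le_trans h4 h5) h7 (Real.rpow_nonneg hKpos _)
      _ = (2 * (Nat.clog 2 n : ℝ)) ^ (q - 1) * (∑ e ∈ E, r k e) * d i j := by ring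
  · have hn' : (2 : ℝ) ≤ n := by exact_mod_cast hn
    have hlogn : 0 ≤ Real.log n := Real.log_nonneg (by linarith)
    have h0 : ∑ k, (2 * (Nat.clog 2 n : ℝ)) ^ (q - 1) * ∑ e ∈ E, r k e =
        (2 * (Nat.clog 2 n : ℝ)) ^ (q - 1) * ∑ e ∈ E, ∑ k, r k e := by
      rw [← mul_sum, sum_comm]
    have h1 : ∑ e ∈ E, ∑ k, r k e ≤ ∑ e ∈ E, (1 : ℝ) := sum_le_sum (fun e _ => hrsum e)
    have h2 : ∑ e ∈ E, (1 : ℝ) = E.card := by simp
    have h3 : (E.card : ℝ) ≤ 4 * n := by exact_mod_cast hE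
    have h4 : 2 * (Nat.clog 2 n : ℝ) ≤ 6 * Real.log n := by
      have := clog_le_three_log n hn
      linarith
    have h5 : (2 * (Nat.clog 2 n : ℝ)) ^ (q - 1) ≤ (6 * Real.log n) ^ (q - 1) :=
      Real.rpow_le_rpow hKpos h4 hq0
    have h6 : (6 * Real.log n) ^ (q - 1) = 6 ^ (q - 1) * Real.log n ^ (q - 1) :=
      Real.mul_rpow (by norm_num) hlogn
    have h7 : 0 ≤ (6 : ℝ) ^ (q - 1) * Real.log n ^ (q - 1) := by
      rw [← h6]
      exact Real.rpow_nonneg (by positivity) _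
    have h8 : ∑ e ∈ E, ∑ k, r k e ≤ 4 * n := by linarith
    have h9 : 0 ≤ ∑ e ∈ E, ∑ k, r k e :=
      sum_nonneg (fun e _ => sum_nonneg (fun k _ => hr0 k e))
    rw [h0]
    calc (2 * (Nat.clog 2 n : ℝ)) ^ (q - 1) * ∑ e ∈ E, ∑ k, r k e
        ≤ (6 ^ (q - 1) * Real.log n ^ (q - 1)) * (4 * n) := by
          rw [← h6]
          exact mul_le_mul h5 h8 h9 (Real.rpow_nonneg (by positivity) _)
      _ = 4 * 6 ^ (q - 1) * n * Real.log n ^ (q - 1) := by ring

end Vale.Agent.Lib.P249.H95
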